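import Vale.Agent.P249.Dim.Smooth

/-!
Smoothing over windows of scales, switched off where a light map is negligible.
-/

namespace Vale.Agent.P249.Iso

open Finset Vale.Agent.P249.Dim

variable {ι κ μ : Type*} [Fintype ι] [Fintype κ] [Fintype μ] {p : ℝ}

/-- A two-Lipschitz majorant of a light map that is small where balls are heavy. -/
lemma exists_radius (hp : 1 ≤ p) (x : ι → κ → ℝ) (y : ι → μ → ℝ) {G : ℝ} (hG : 0 ≤ G)
    (hy : ∀ a b, nm p (y a - y b) ≤ 2 * nm p (x a - x b))
    (hlight : ∀ a r, 0 ≤ r → G < (cnt p x a r : ℝ) → nm p (y a) ≤ G * r) :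
    (∀ a, ∃ r, 0 ≤ r ∧ G < (cnt p x a r : ℝ)) →
    ∃ R : ι → ℝ, (∀ a, 0 ≤ R a) ∧ (∀ a b, R a ≤ R b + 2 * nm p (x a - x b)) ∧
      (∀ a, nm p (y a) ≤ R a) ∧ ∀ a r, 0 ≤ r → G < (cnt p x a r : ℝ) → R a ≤ G * r := by
  classical
  intro hex
  have hp0 : 0 < p := by linarith
  set S := (univ : Finset (ι × ι)).filter fun q => G < (cnt p x q.1 (nm p (x q.1 - x q.2)) : ℝ)
    with hS
  have hwit : ∀ a r, 0 ≤ r → G < (cnt p x a r : ℝ) → ∃ q ∈ S, q.1 = a ∧ nm p (x a - x q.2) ≤ r := by
    intro a r hr h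
    set B := univ.filter fun z => nm p (x a - x z) ≤ r with hB
    have hBne : B.Nonempty := ⟨a, by simp [hB, nm, pw, Real.zero_rpow hp0.ne',
      Real.zero_rpow (inv_ne_zero hp0.ne'), hr]⟩
    obtain ⟨w, hw, hmax⟩ := B.exists_max_image (fun z => nm p (x a - x z)) hBne
    rw [hB, mem_filter] at hw
    refine ⟨(a, w), ?_, rfl, hw.2⟩
    rw [hS, mem_filter]
    refine ⟨mem_univ _, h.trans_le (Nat.cast_le.2 (card_le_card fun z hz => ?_))⟩
    simp only [mem_filter, mem_univ, true_and] at hz ⊢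
    exact hmax z (by simp [hB, hz])
  rcases isEmpty_or_nonempty ι with h | h
  · exact ⟨fun _ => 0, fun _ => le_rfl, fun a => isEmptyElim a, fun a => isEmptyElim a,
      fun a => isEmptyElim a⟩
  have hne : S.Nonempty := by
    obtain ⟨a⟩ := h
    obtain ⟨r, hr, hr'⟩ := hex a
    obtain ⟨q, hq, -⟩ := hwit a r hr hr'
    exact ⟨q, hq⟩
  set F := fun (a : ι) (q : ι × ι) =>
    G * nm p (x q.1 - x q.2) + 2 * nm p (x a - x q.1) with hF
  refine ⟨fun a => S.inf' hne (F a), fun a => le_inf' hne _ fun q _ => ?_, fun a b => ?_,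
    fun a => le_inf' hne _ fun q hq => ?_, fun a r hr h => ?_⟩
  · have := nm_nonneg (p := p) (x q.1 - x q.2)
    have := nm_nonneg (p := p) (x a - x q.1)
    simp only [hF]
    positivity
  · obtain ⟨q, hq, hqe⟩ := exists_mem_eq_inf' hne (F b)
    show S.inf' hne (F a) ≤ S.inf' hne (F b) + _
    rw [hqe]
    refine (inf'_le _ hq).trans ?_
    simp only [hF]
    linarith [nm_sub_le hp (x a) (x b) (x q.1)]
  · rw [hS, mem_filter] at hq
    have h1 := hlight q.1 _ (nm_nonneg _) hq.2
    have h2 := hy a q.1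
    have h3 := nm_sub_le hp (y a) (y q.1) 0
    simp only [sub_zero] at h3
    simp only [hF]
    linarith
  · obtain ⟨q, hq, rfl, hqr⟩ := hwit a r hr h
    refine (inf'_le _ hq).trans ?_
    simp only [hF, sub_self, show nm p (0 : κ → ℝ) = 0 from nm_zero hp0, mul_zero, add_zero]
    exact mul_le_mul_of_nonneg_left hqr hG

/-- The switch at radius `r`. -/
noncomputable def gate (G : ℝ) (R : ι → ℝ) (r : ℝ) (a : ι) : ℝ :=
  max 0 (min 1 (R a / (64 * G * r) - 1))

/-- The cost of one level at one point. -/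
noncomputable def levelCost (p : ℝ) (x : ι → κ → ℝ) (G : ℝ) (R : ι → ℝ) (C0 C1 r : ℝ) (a : ι) : ℝ :=
  (if 64 * G * r < R a then 32 * C0 * (vol p x a (8 * r) - vol p x a (r / 8)) else 0) +
    if 63 * G * r < R a ∧ R a < 129 * G * r then C1 + 62 * C0 else 0

lemma levelCost_nonneg (hp : 0 < p) (x : ι → κ → ℝ) {G : ℝ} (R : ι → ℝ) {C0 C1 r : ℝ}
    (hC0 : 0 ≤ C0) (hC1 : 0 ≤ C1) (hr : 0 ≤ r) (a : ι) : 0 ≤ levelCost p x G R C0 C1 r a := by
  have : 0 ≤ vol p x a (8 * r) - vol p x a (r / 8) :=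
    sub_nonneg.2 (vol_mono hp x a (by positivity) (by linarith))
  rw [levelCost]
  refine add_nonneg ?_ ?_ <;> split_ifs <;> positivity

/-- One level. -/
lemma exists_level (hp : 1 ≤ p) (x : ι → κ → ℝ) {G : ℝ} (hG : 1 ≤ G) {R : ι → ℝ}
    (hR : ∀ a b, R a ≤ R b + 2 * nm p (x a - x b)) (P : ι → μ → ℝ) {C0 C1 R0 r : ℝ}
    (hC0 : 0 ≤ C0) (hC1 : 0 ≤ C1) (hR0 : 0 < R0) (hr : R0 ≤ r)
    (hP : ∀ a b, nm p (P a - P b) ≤ C0 * (nm p (x a - x b) + R0))
    (hsmall : ∀ a, R a < 128 * G * r → nm p (P a) ≤ C1 * (G * r)) :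
    ∃ Y : ι → μ → ℝ, (∀ a, nm p (Y a - P a) ≤ (C1 + 4 * C0) * (G * r)) ∧
      (∀ a M, 0 ≤ M → (64 * G * r < R a → nm p (P a) + 4 * C0 * r ≤ M) → nm p (Y a) ≤ M) ∧
      (∀ a b, r < 4 * nm p (x a - x b) →
        nm p (Y a - Y b) ≤ nm p (x a - x b) * (C1 + 62 * C0)) ∧
      ∀ a b, 4 * nm p (x a - x b) ≤ r →
        nm p (Y a - Y b) ≤ nm p (x a - x b) * levelCost p x G R C0 C1 r a := by
  have hp0 : 0 < p := by linarith
  have hr0 : 0 < r := hR0.trans_le hr
  obtain ⟨Q, hQ1, -, hQ3⟩ := exists_smooth hp x P hC0 hR0 hr hP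
    (S0 := ∑ a, nm p (P a)) fun a => single_le_sum (fun b _ => nm_nonneg (P b)) (mem_univ a)
  set g := gate G R r with hg
  have hg0 : ∀ a, 0 ≤ g a := fun a => le_max_left _ _
  have hg1 : ∀ a, g a ≤ 1 := fun a => max_le zero_le_one (min_le_left _ _)
  have hGr : 0 < 64 * G * r := by positivity
  have hgz : ∀ a, R a ≤ 64 * G * r → g a = 0 := fun a h => by
    have : R a / (64 * G * r) ≤ 1 := (div_le_one hGr).2 h
    exact max_eq_left (min_le_iff.2 (Or.inr (by linarith)))
  have hgo : ∀ a, 128 * G * r ≤ R a → g a = 1 := fun a h => by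
    have : 2 ≤ R a / (64 * G * r) := by rw [le_div_iff₀ hGr]; linarith
    rw [hg, gate, min_eq_left (by linarith), max_eq_right zero_le_one]
  have hglip : ∀ a b, |g a - g b| ≤ nm p (x a - x b) / (32 * (G * r)) := by
    intro a b
    refine (abs_max_sub_max_le_max _ _ _ _).trans ?_
    rw [sub_self, abs_zero, max_eq_right (abs_nonneg _)]
    refine (abs_min_sub_min_le_max _ _ _ _).trans ?_
    rw [sub_self, abs_zero, max_eq_right (abs_nonneg _),
      show R a / (64 * G * r) - 1 - (R b / (64 * G * r) - 1) = (R a - R b) / (64 * G * r) by ring,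
      abs_div, abs_of_pos hGr]
    have h1 := hR a b
    have h2 := hR b a
    rw [nm_sub_comm (x b)] at h2
    rw [show nm p (x a - x b) / (32 * (G * r)) = 2 * nm p (x a - x b) / (64 * G * r) by ring]
    exact div_le_div_of_nonneg_right (abs_le.2 ⟨by linarith, by linarith⟩) hGr.le
  have hQn : ∀ a, nm p (Q a) ≤ nm p (P a) + 4 * C0 * r := by
    intro a
    have := nm_add_le hp (Q a - P a) (P a)
    rw [sub_add_cancel] at this
    linarith [hQ1 a]
  have hGr1 : r ≤ G * r := le_mul_of_one_le_left hr0.le hG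
  -- the size of the second factor where the switch changes
  have hsecond : ∀ a b, |g a - g b| * nm p (Q b) ≤ |g a - g b| *
      (C1 * (G * r) + C0 * nm p (x a - x b) + 5 * C0 * r) := by
    intro a b
    set d := nm p (x a - x b) with hd
    have hd0 : 0 ≤ d := nm_nonneg _
    rcases eq_or_ne (g a) (g b) with h | h
    · rw [h, sub_self, abs_zero, zero_mul, zero_mul]
    refine mul_le_mul_of_nonneg_left ?_ (abs_nonneg _)
    refine (hQn b).trans ?_
    have : 0 ≤ C0 * d := by positivity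
    have : 0 ≤ C0 * r := by positivity
    rcases lt_or_ge (R b) (128 * G * r) with hb | hb
    · linarith [hsmall b hb]
    · have ha : R a < 128 * G * r := by
        by_contra hc
        exact h (by rw [hgo a (le_of_not_gt hc), hgo b hb])
      have h1 := hsmall a ha
      have h2 := hP b a
      rw [nm_sub_comm (x b) (x a), ← hd] at h2
      have h3 := nm_add_le hp (P b - P a) (P a)
      rw [sub_add_cancel] at h3
      have : C0 * R0 ≤ C0 * r := mul_le_mul_of_nonneg_left hr hC0
      linarith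
  have hsplit : ∀ a b, nm p (g a • Q a - g b • Q b) ≤
      g a * nm p (Q a - Q b) + |g a - g b| * nm p (Q b) := by
    intro a b
    have e : g a • Q a - g b • Q b = g a • (Q a - Q b) + (g a - g b) • Q b := by
      simp only [smul_sub, sub_smul]; abel
    rw [e]
    refine (nm_add_le hp _ _).trans (le_of_eq ?_)
    rw [nm_smul hp0, nm_smul hp0, abs_of_nonneg (hg0 a)]
  refine ⟨fun a => g a • Q a, fun a => ?_, fun a M hM h => ?_, fun a b hab => ?_, fun a b hab => ?_⟩
  · have e : g a • Q a - P a = g a • (Q a - P a) + (g a - 1) • P a := by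
      simp only [smul_sub, sub_smul, one_smul]; abel
    rw [e]
    refine (nm_add_le hp _ _).trans ?_
    rw [nm_smul hp0, nm_smul hp0, abs_of_nonneg (hg0 a), abs_sub_comm,
      abs_of_nonneg (sub_nonneg.2 (hg1 a))]
    have h1 : g a * nm p (Q a - P a) ≤ 4 * C0 * (G * r) :=
      (mul_le_of_le_one_left (nm_nonneg _) (hg1 a)).trans
        ((hQ1 a).trans (mul_le_mul_of_nonneg_left hGr1 (by positivity)))
    rcases lt_or_ge (R a) (128 * G * r) with ha | ha
    · have h2 : (1 - g a) * nm p (P a) ≤ C1 * (G * r) :=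
        (mul_le_of_le_one_left (nm_nonneg _) (by linarith [hg0 a])).trans (hsmall a ha)
      linarith
    · rw [hgo a ha] at h1 ⊢
      have : 0 ≤ C1 * (G * r) := by positivity
      linarith [nm_nonneg (p := p) (P a)]
  · rcases le_or_gt (R a) (64 * G * r) with ha | ha
    · simp only [hgz a ha, zero_smul]
      rw [show nm p (0 : μ → ℝ) = 0 from nm_zero hp0]
      exact hM
    · rw [nm_smul hp0, abs_of_nonneg (hg0 a)]
      exact (mul_le_of_le_one_left (nm_nonneg _) (hg1 a)).trans ((hQn a).trans (h ha))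
  · set d := nm p (x a - x b) with hd
    have hd0 : 0 ≤ d := nm_nonneg _
    refine (hsplit a b).trans ?_
    have h1 : nm p (Q a - Q b) ≤ 41 * C0 * d := by
      have a1 := nm_sub_le hp (Q a) (P a) (Q b)
      have a2 := nm_sub_le hp (P a) (P b) (Q b)
      rw [nm_sub_comm (P b) (Q b)] at a2
      have a3 := hP a b
      rw [← hd] at a3
      have : C0 * r ≤ C0 * (4 * d) := mul_le_mul_of_nonneg_left hab.le hC0
      have : C0 * R0 ≤ C0 * r := mul_le_mul_of_nonneg_left hr hC0
      have : 0 ≤ C0 * d := by positivity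
      linarith [hQ1 a, hQ1 b]
    have h2 : |g a - g b| * nm p (Q b) ≤ (C1 + 21 * C0) * d := by
      refine (hsecond a b).trans ?_
      rw [← hd]
      have b1 : |g a - g b| ≤ 1 := abs_le.2 ⟨by linarith [hg0 a, hg1 b], by linarith [hg0 b, hg1 a]⟩
      have b2 : |g a - g b| * (G * r) ≤ d := by
        have := hglip a b
        rw [← hd, le_div_iff₀ (by positivity)] at this
        have : 0 ≤ |g a - g b| * (G * r) := by positivity
        linarith
      have b3 := mul_le_mul_of_nonneg_left b2 hC1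
      have b4 := mul_le_mul_of_nonneg_right b1 (by positivity : 0 ≤ C0 * d + 5 * C0 * r)
      have : C0 * r ≤ C0 * (4 * d) := mul_le_mul_of_nonneg_left hab.le hC0
      linarith
    have h3 : g a * nm p (Q a - Q b) ≤ 41 * C0 * d :=
      (mul_le_of_le_one_left (nm_nonneg _) (hg1 a)).trans h1
    linarith
  · set d := nm p (x a - x b) with hd
    have hd0 : 0 ≤ d := nm_nonneg _
    refine (hsplit a b).trans ?_
    rw [levelCost, mul_add]
    refine add_le_add ?_ ?_
    · split_ifs with ha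
      · refine (mul_le_of_le_one_left (nm_nonneg _) (hg1 a)).trans ((hQ3 a b hab).trans (le_of_eq ?_))
        ring
      · rw [hgz a (le_of_not_gt ha), zero_mul, mul_zero]
    · rcases eq_or_ne (g a) (g b) with h | h
      · rw [h, sub_self, abs_zero, zero_mul]
        refine mul_nonneg hd0 ?_
        split_ifs <;> positivity
      have hr' := hR a b
      have hr'' := hR b a
      rw [nm_sub_comm (x b), ← hd] at hr''
      rw [← hd] at hr'
      have hcond : 63 * G * r < R a ∧ R a < 129 * G * r := by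
        constructor
        · by_contra hc
          push Not at hc
          exact h (by rw [hgz a (by linarith), hgz b (by linarith)])
        · by_contra hc
          push Not at hc
          exact h (by rw [hgo a (by linarith), hgo b (by linarith)])
      rw [if_pos hcond]
      refine (hsecond a b).trans ?_
      rw [← hd]
      have b2 := hglip a b
      rw [← hd, le_div_iff₀ (by positivity)] at b2
      have b3 := mul_le_mul_of_nonneg_left b2 (by positivity : 0 ≤ C1 + 6 * C0)
      have b4 : C0 * d ≤ C0 * (G * r) := mul_le_mul_of_nonneg_left (by linarith) hC0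
      have b5 : C0 * r ≤ C0 * (G * r) := mul_le_mul_of_nonneg_left hGr1 hC0
      have b6 := mul_le_mul_of_nonneg_left
        (show C1 * (G * r) + C0 * d + 5 * C0 * r ≤ (C1 + 6 * C0) * (G * r) by linarith)
        (abs_nonneg (g a - g b))
      have : 0 ≤ (C1 + 6 * C0) * d := by positivity
      have : 0 ≤ C0 * d := by positivity
      have : 0 ≤ C1 * d := by positivity
      have : 0 ≤ |g a - g b| * ((C1 + 6 * C0) * (G * r)) := by positivity
      linarith

/-- The costs of all levels sum to the logarithm of the threshold. -/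
lemma sum_levelCost_le (hp : 1 ≤ p) (x : ι → κ → ℝ) {G : ℝ} (hG : 1 ≤ G) {R : ι → ℝ}
    (hheavy : ∀ a r, 0 ≤ r → G < (cnt p x a r : ℝ) → R a ≤ G * r) {C0 C1 r0 : ℝ}
    (hC0 : 0 ≤ C0) (hC1 : 0 ≤ C1) (hr0 : 0 < r0) (a : ι) (s : Finset ℕ) :
    ∑ l ∈ s, levelCost p x G R C0 C1 (r0 * 2 ^ l) a ≤
      192 * C0 * Real.log G + 2 * (C1 + 62 * C0) := by
  classical
  have hp0 : 0 < p := by linarith
  simp only [levelCost, sum_add_distrib]
  refine add_le_add ?_ ?_
  · rw [← sum_filter, ← mul_sum,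
      show 192 * C0 * Real.log G = 32 * C0 * (6 * Real.log G) by ring]
    refine mul_le_mul_of_nonneg_left ?_ (by positivity)
    set S := s.filter fun l => 64 * G * (r0 * 2 ^ l) < R a with hS
    rcases S.eq_empty_or_nonempty with h | h
    · rw [h, sum_empty]
      exact mul_nonneg (by norm_num) (Real.log_nonneg hG)
    set M := S.max' h with hM
    have hMS := mem_filter.1 (S.max'_mem h)
    set H : ℕ → ℝ := fun k => vol p x a (r0 * 2 ^ k / 8) with hH
    have hHm : ∀ i j, i ≤ j → H i ≤ H j := fun i j hij => by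
      refine vol_mono hp0 x a (by positivity) (div_le_div_of_nonneg_right ?_ (by norm_num))
      exact mul_le_mul_of_nonneg_left (pow_le_pow_right₀ one_le_two hij) hr0.le
    have e : ∀ l, vol p x a (8 * (r0 * 2 ^ l)) - vol p x a (r0 * 2 ^ l / 8) = H (l + 6) - H l := by
      intro l
      simp only [hH]
      rw [pow_add, show r0 * (2 ^ l * 2 ^ 6) / 8 = 8 * (r0 * (2:ℝ) ^ l) by ring]
    simp only [e]
    calc ∑ l ∈ S, (H (l + 6) - H l) ≤ ∑ l ∈ range (M + 1), (H (l + 6) - H l) :=
          sum_le_sum_of_subset_of_nonneg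
            (fun l hl => mem_range.2 (Nat.lt_succ_of_le (S.le_max' l hl)))
            fun l _ _ => sub_nonneg.2 (hHm _ _ (by omega))
      _ = ∑ i ∈ range 6, (H (M + 1 + i) - H i) := by
          have key : ∀ n, ∑ l ∈ range n, (H (l + 6) - H l) = ∑ i ∈ range 6, (H (n + i) - H i) := by
            intro n
            induction n with
            | zero => simp
            | succ n ih =>
              rw [sum_range_succ, ih]
              simp only [sum_range_succ, range_zero, sum_empty]
              ring_nf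
          exact key _
      _ ≤ ∑ _i ∈ range 6, Real.log G := by
          refine sum_le_sum fun i hi => ?_
          have hi' := mem_range.1 hi
          have h0 : 0 ≤ H i := vol_nonneg x a _
          have h1 := hHm _ (M + 6) (by omega : M + 1 + i ≤ M + 6)
          have h2 : H (M + 6) ≤ Real.log G := by
            simp only [hH, vol]
            refine Real.log_le_log (by exact_mod_cast cnt_pos hp0 x a (by positivity)) ?_
            by_contra hc
            have := hheavy a _ (by positivity) (lt_of_not_ge hc)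
            rw [pow_add] at this
            have hM2 : 64 * G * (r0 * 2 ^ M) < R a := hMS.2
            have : 0 < G * (r0 * 2 ^ M) := by positivity
            linarith
          linarith
      _ = _ := by simp
  · rw [← sum_filter, sum_const, nsmul_eq_mul]
    refine mul_le_mul_of_nonneg_right ?_ (by positivity)
    set S := s.filter fun l => 63 * G * (r0 * 2 ^ l) < R a ∧ R a < 129 * G * (r0 * 2 ^ l) with hS
    rcases S.eq_empty_or_nonempty with h | h
    · rw [h]; simp
    have hsub : S ⊆ {S.min' h, S.min' h + 1} := by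
      intro l hl
      have h1 := (mem_filter.1 hl).2
      have h2 := (mem_filter.1 (S.min'_mem h)).2
      have h3 := S.min'_le l hl
      rw [mem_insert, mem_singleton]
      by_contra hc
      push Not at hc
      have h4 := mul_le_mul_of_nonneg_left (pow_le_pow_right₀ (one_le_two (α := ℝ))
        (show S.min' h + 2 ≤ l by omega)) (mul_nonneg (by linarith : 0 ≤ 63 * G) hr0.le)
      rw [pow_add] at h4
      have : 0 < G * (r0 * 2 ^ (S.min' h)) := by positivity
      linarith [h1.1, h2.2]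
    exact_mod_cast (card_le_card hsub).trans card_le_two

/-- One window of levels. -/
lemma exists_window (hp : 1 ≤ p) (x : ι → κ → ℝ) {G : ℝ} (hG : 1 ≤ G) {R : ι → ℝ}
    (hR : ∀ a b, R a ≤ R b + 2 * nm p (x a - x b)) (P : ι → μ → ℝ) {C0 C1 R0 r0 : ℝ}
    (hC0 : 0 ≤ C0) (hC1 : 0 ≤ C1) (hr0 : 0 < r0) {w : ℕ} (hw : 1 ≤ w) (n : ℕ) (hR0 : 0 < R0)
    (hR0le : R0 ≤ r0 * 2 ^ (n * w))
    (hP : ∀ a b, nm p (P a - P b) ≤ C0 * (nm p (x a - x b) + R0))
    (hsmall : ∀ a, ∀ i < w, R a < 128 * G * (r0 * 2 ^ (n * w + i)) →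
      nm p (P a) ≤ C1 * (G * (r0 * 2 ^ (n * w + i)))) :
    ∃ Y : ι → μ → ℝ, (∀ a, nm p (Y a - P a) ≤ (C1 + 4 * C0) * (G * (r0 * 2 ^ ((n + 1) * w)))) ∧
      (∀ a M, 0 ≤ M → (∀ i < w, 64 * G * (r0 * 2 ^ (n * w + i)) < R a →
        nm p (P a) + 4 * C0 * (r0 * 2 ^ (n * w + i)) ≤ M) → nm p (Y a) ≤ M) ∧
      (∀ a b, nm p (Y a - Y b) ≤ nm p (x a - x b) * (C1 + 62 * C0 +
        (w:ℝ)⁻¹ * ∑ i ∈ range w, levelCost p x G R C0 C1 (r0 * 2 ^ (n * w + i)) a)) ∧
      ∀ a b, 4 * nm p (x a - x b) ≤ r0 * 2 ^ (n * w) → nm p (Y a - Y b) ≤ nm p (x a - x b) *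
        ((w:ℝ)⁻¹ * ∑ i ∈ range w, levelCost p x G R C0 C1 (r0 * 2 ^ (n * w + i)) a) := by
  have hp0 : 0 < p := by linarith
  have hw0 : (0:ℝ) < w := by exact_mod_cast hw
  have hrad : ∀ i, r0 * 2 ^ (n * w) ≤ r0 * 2 ^ (n * w + i) := fun i =>
    mul_le_mul_of_nonneg_left (pow_le_pow_right₀ one_le_two (Nat.le_add_right _ _)) hr0.le
  choose Y hY1 hY2 hY3 hY4 using fun i : Fin w => exists_level hp x hG hR P hC0 hC1 hR0
    (hR0le.trans (hrad i)) hP fun a => hsmall a i i.isLt
  set T := fun (a : ι) (i : ℕ) => levelCost p x G R C0 C1 (r0 * 2 ^ (n * w + i)) a with hT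
  have hT0 : ∀ a i, 0 ≤ T a i := fun a i =>
    levelCost_nonneg hp0 x R hC0 hC1 (by positivity) a
  have havg : ∀ (f : Fin w → μ → ℝ) (g : Fin w → ℝ), (∀ i, nm p (f i) ≤ g i) →
      nm p ((w:ℝ)⁻¹ • ∑ i, f i) ≤ (w:ℝ)⁻¹ * ∑ i, g i := by
    intro f g hfg
    rw [nm_smul hp0, abs_of_nonneg (by positivity)]
    exact mul_le_mul_of_nonneg_left ((nm_sum_le hp _ _).trans (sum_le_sum fun i _ => hfg i))
      (by positivity)
  refine ⟨fun a => (w:ℝ)⁻¹ • ∑ i, Y i a, fun a => ?_, fun a M hM h => ?_, fun a b => ?_,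
    fun a b hab => ?_⟩
  · have e : (w:ℝ)⁻¹ • ∑ i, Y i a - P a = (w:ℝ)⁻¹ • ∑ i, (Y i a - P a) := by
      rw [sum_sub_distrib, smul_sub, sum_const, card_univ, Fintype.card_fin,
        ← Nat.cast_smul_eq_nsmul ℝ, smul_smul, inv_mul_cancel₀ hw0.ne', one_smul]
    rw [e]
    refine (havg _ (fun _ => (C1 + 4 * C0) * (G * (r0 * 2 ^ ((n + 1) * w)))) fun i =>
      (hY1 i a).trans ?_).trans (le_of_eq (by simp; field_simp))
    refine mul_le_mul_of_nonneg_left (mul_le_mul_of_nonneg_left (mul_le_mul_of_nonneg_left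
      (pow_le_pow_right₀ one_le_two ?_) hr0.le) (by linarith)) (by positivity)
    have := i.isLt
    rw [add_mul, one_mul]; omega
  · exact (havg _ (fun _ => M) fun i => hY2 i a M hM fun ha => h i i.isLt ha).trans
      (le_of_eq (by simp; field_simp))
  · rw [← smul_sub, ← sum_sub_distrib]
    refine (havg _ (fun i => nm p (x a - x b) * (C1 + 62 * C0 + T a i)) fun i => ?_).trans
      (le_of_eq ?_)
    · rcases le_or_gt (4 * nm p (x a - x b)) (r0 * 2 ^ (n * w + (i:ℕ))) with h | h
      · exact (hY4 i a b h).trans (mul_le_mul_of_nonneg_left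
          (le_add_of_nonneg_left (by positivity)) (nm_nonneg _))
      · exact (hY3 i a b h).trans (mul_le_mul_of_nonneg_left
          (le_add_of_nonneg_right (hT0 a i)) (nm_nonneg _))
    · rw [← mul_sum, sum_add_distrib, Fin.sum_univ_eq_sum_range (fun i => T a i)]
      simp only [hT, sum_const, card_univ, Fintype.card_fin, nsmul_eq_mul]
      field_simp
  · rw [← smul_sub, ← sum_sub_distrib]
    refine (havg _ (fun i => nm p (x a - x b) * T a i)
      fun i => hY4 i a b (hab.trans (hrad i))).trans (le_of_eq ?_)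
    rw [← mul_sum, Fin.sum_univ_eq_sum_range (fun i => T a i)]
    ring

end Vale.Agent.P249.Iso
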