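import Vale.Agent.P249.Dim.Basic
import Mathlib.Algebra.Order.Ring.GeomSum

/-!
One pair and one shift: only the band containing the distance matters.
-/

namespace Vale.Agent.P249.Iso

open Finset Vale.Agent.P249.Dim

lemma card_middle_le {B : ℕ} (hB : 3 ≤ B) (s m J : ℕ) :
    ((range J).filter fun j => ¬ (s + j * B + B + 2 ≤ m) ∧ ¬ (m + 2 ≤ s + j * B)).card ≤ 2 := by
  classical
  set S := (range J).filter fun j => ¬ (s + j * B + B + 2 ≤ m) ∧ ¬ (m + 2 ≤ s + j * B) with hS
  rcases S.eq_empty_or_nonempty with h | h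
  · simp [h]
  refine (card_le_card (t := {S.min' h, S.min' h + 1}) fun j hj => ?_).trans card_le_two
  have h1 := (mem_filter.1 (S.min'_mem h)).2
  have h2 := (mem_filter.1 hj).2
  have h3 := S.min'_le j hj
  rw [mem_insert, mem_singleton]
  by_contra hc
  push Not at hc
  have h4 : (S.min' h + 2) * B ≤ j * B := Nat.mul_le_mul_right B (by omega)
  rw [add_mul] at h4
  omega

lemma sum_pow_lower {B w : ℕ} (hB : 1 ≤ B) (hw : 1 ≤ w) (s m : ℕ) (S : Finset ℕ)
    (hS : ∀ j ∈ S, s + j * B + B + 2 ≤ m) :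
    ∑ j ∈ S, (2:ℝ) ^ ((s + j * B + B + 1) * w) ≤ 2 * 2 ^ ((m - 1) * w) := by
  classical
  have hinj : Set.InjOn (fun j => (s + j * B + B + 1) * w) S := by
    intro i _ j _ h
    have h1 := Nat.eq_of_mul_eq_mul_right (show 0 < w by omega) h
    exact Nat.eq_of_mul_eq_mul_right (show 0 < B by omega) (by omega : i * B = j * B)
  rw [← sum_image (f := fun e => (2:ℝ) ^ e) hinj]
  refine (sum_le_sum_of_subset_of_nonneg (t := range ((m - 1) * w + 1)) ?_
    fun _ _ _ => by positivity).trans ?_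
  · intro e he
    obtain ⟨j, hj, rfl⟩ := mem_image.1 he
    have := hS j hj
    exact mem_range.2 (Nat.lt_succ_of_le (Nat.mul_le_mul_right w (by omega)))
  · have : ∀ n, ∑ e ∈ range n, (2:ℝ) ^ e = 2 ^ n - 1 := fun n => by
      induction n with
      | zero => simp
      | succ n ih => rw [sum_range_succ, ih, pow_succ]; ring
    rw [this, pow_succ]; linarith

variable {μ ν : Type*} [Fintype μ] [Fintype ν] {p : ℝ}

/-- The sketch of one pair at one shift. -/
lemma pair_shift (hp : 1 ≤ p) (Y : μ → ℝ) (Q : ℕ → μ → ℝ) (F F' : ℕ → ν → ℝ) (T : ℕ → ℝ)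
    {d G η e r0 : ℝ} {B w m J s : ℕ} (hB : 4 ≤ B) (hw : 1 ≤ w) (hd : 0 ≤ d) (hG : 1 ≤ G)
    (he : 0 ≤ e) (hr0 : 0 < r0) (hT0 : ∀ l, 0 ≤ T l)
    (hm : r0 * 2 ^ (m * w) ≤ d) (hsm : s ≤ m) (hmJ : m < J)
    (hηG : 30000 * G ≤ η * 2 ^ w) (hηe : 510 * e ≤ η) (he1 : e ≤ 1)
    (hTsum : ∀ S : Finset ℕ, (w:ℝ)⁻¹ * ∑ l ∈ S, T l ≤ η)
    (hq : ∀ n, nm p (Q n - Y) ≤ 272 * (G * (r0 * 2 ^ ((n + 1) * w))))
    (hqall : ∀ n, nm p (Q n) ≤ 253 * d)
    (hqup : ∀ n, m + 2 ≤ n → nm p (Q n) ≤ η * d)
    (hF : ∀ n, |nm p (F n) - nm p (Q n - Q (n + B))| ≤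
      e * (nm p (Q n - Q (n + B)) + r0 * 2 ^ (n * w)))
    (hF' : ∀ n, nm p (F' n - F n) ≤ 10000 * (G * (r0 * 2 ^ ((n + 1) * w))))
    (hup : ∀ n, m + 2 ≤ n → nm p (F' n) ≤ d * ((w:ℝ)⁻¹ * ∑ i ∈ range w, T (n * w + i)))
    (hnear : ∀ n, nm p (F' n) ≤ 69000 * d) :
    nm p (∑ j ∈ range J, F' (s + j * B)) ≤ 138000 * d + 2 * η * d ∧
      (2 ≤ (m - s) % B → (m - s) % B + 2 ≤ B →
        |nm p (∑ j ∈ range J, F' (s + j * B)) - nm p Y| ≤ 6 * η * d) := by
  classical
  set Lw := (range J).filter fun j => s + j * B + B + 2 ≤ m with hLw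
  set rest := (range J).filter fun j => ¬ (s + j * B + B + 2 ≤ m) with hrest
  set U := rest.filter fun j => m + 2 ≤ s + j * B with hU
  set Mi := rest.filter fun j => ¬ (m + 2 ≤ s + j * B) with hMi
  have hsplit : ∑ j ∈ range J, F' (s + j * B) = ∑ j ∈ Lw, F' (s + j * B) +
      (∑ j ∈ U, F' (s + j * B) + ∑ j ∈ Mi, F' (s + j * B)) := by
    rw [hU, hMi, sum_filter_add_sum_filter_not, hLw, hrest, sum_filter_add_sum_filter_not]
  have h2w : (0:ℝ) < 2 ^ w := by positivity
  have hη0 : 0 ≤ η := by linarith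
  -- a radius at most one window below the distance
  have hlow : ∀ k, k + 1 ≤ m → G * (r0 * 2 ^ (k * w)) * 30000 ≤ η * d := by
    intro k hk
    have h1 : r0 * 2 ^ (k * w) * 2 ^ w ≤ d := by
      refine le_trans ?_ hm
      rw [mul_assoc, ← pow_add]
      refine mul_le_mul_of_nonneg_left (pow_le_pow_right₀ one_le_two ?_) hr0.le
      calc k * w + w = (k + 1) * w := by ring
        _ ≤ m * w := Nat.mul_le_mul_right w hk
    have h2 := mul_le_mul_of_nonneg_left h1 hη0
    have h3 := mul_le_mul_of_nonneg_right hηG (by positivity : 0 ≤ r0 * (2:ℝ) ^ (k * w))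
    linarith
  have hrR : ∀ n, r0 * 2 ^ (n * w) ≤ r0 * 2 ^ ((n + 1) * w) := fun n =>
    mul_le_mul_of_nonneg_left (pow_le_pow_right₀ one_le_two (Nat.mul_le_mul_right w (by omega)))
      hr0.le
  have hE : ∀ n, nm p (Q n - Q (n + B)) ≤ 544 * (G * (r0 * 2 ^ ((n + B + 1) * w))) := by
    intro n
    refine (nm_sub_le hp _ Y _).trans ?_
    rw [nm_sub_comm Y]
    have h1 := hq n
    have h2 := hq (n + B)
    have h3 : G * (r0 * 2 ^ ((n + 1) * w)) ≤ G * (r0 * 2 ^ ((n + B + 1) * w)) :=
      mul_le_mul_of_nonneg_left (mul_le_mul_of_nonneg_left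
        (pow_le_pow_right₀ one_le_two (Nat.mul_le_mul_right w (by omega))) hr0.le) (by linarith)
    linarith
  have hL : ∑ j ∈ Lw, nm p (F' (s + j * B)) ≤ η * d := by
    rcases Lw.eq_empty_or_nonempty with h | ⟨j0, hj0⟩
    · rw [h, sum_empty]; positivity
    have hm2 : 2 ≤ m := by
      have := (mem_filter.1 hj0).2
      omega
    calc ∑ j ∈ Lw, nm p (F' (s + j * B))
        ≤ ∑ j ∈ Lw, 12000 * G * r0 * (2:ℝ) ^ ((s + j * B + B + 1) * w) := by
          refine sum_le_sum fun j _ => ?_
          set n := s + j * B with hn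
          have h0 := nm_add_le hp (F' n - F n) (F n)
          rw [sub_add_cancel] at h0
          have h1 := hF' n
          have h2 := (abs_le.1 (hF n)).2
          have h3 := hE n
          have h4 : G * (r0 * 2 ^ ((n + 1) * w)) ≤ G * (r0 * 2 ^ ((n + B + 1) * w)) :=
            mul_le_mul_of_nonneg_left (mul_le_mul_of_nonneg_left
              (pow_le_pow_right₀ one_le_two (Nat.mul_le_mul_right w (by omega))) hr0.le)
              (by linarith)
          have h5 : r0 * 2 ^ (n * w) ≤ G * (r0 * 2 ^ ((n + 1) * w)) :=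
            (hrR n).trans (le_mul_of_one_le_left (by positivity) hG)
          have h6 : e * (nm p (Q n - Q (n + B)) + r0 * 2 ^ (n * w)) ≤
              nm p (Q n - Q (n + B)) + r0 * 2 ^ (n * w) :=
            mul_le_of_le_one_left (add_nonneg (nm_nonneg _) (by positivity)) he1
          have : 0 ≤ G * (r0 * (2:ℝ) ^ ((n + B + 1) * w)) := by positivity
          linarith
      _ ≤ 12000 * G * r0 * (2 * 2 ^ ((m - 1) * w)) := by
          rw [← mul_sum]
          exact mul_le_mul_of_nonneg_left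
            (sum_pow_lower (by omega) hw s m Lw fun j hj => (mem_filter.1 hj).2) (by positivity)
      _ ≤ η * d := by
          have := hlow (m - 1) (by omega)
          have : 0 ≤ G * (r0 * (2:ℝ) ^ ((m - 1) * w)) := by positivity
          linarith
  have hUb : ∑ j ∈ U, nm p (F' (s + j * B)) ≤ η * d := by
    calc ∑ j ∈ U, nm p (F' (s + j * B))
        ≤ ∑ j ∈ U, d * ((w:ℝ)⁻¹ * ∑ i ∈ range w, T ((s + j * B) * w + i)) :=
          sum_le_sum fun j hj => hup _ (mem_filter.1 hj).2
      _ = d * ((w:ℝ)⁻¹ * ∑ l ∈ (U ×ˢ range w).image (fun q => (s + q.1 * B) * w + q.2), T l) := by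
          rw [sum_image, sum_product, mul_sum, mul_sum]
          intro a ha b hb h
          simp only [mem_coe, mem_product, mem_range] at ha hb
          simp only at h
          have h1 : s + a.1 * B = s + b.1 * B := by
            have := congrArg (· / w) h
            simpa [Nat.mul_comm _ w, Nat.mul_add_div (show w > 0 by omega),
              Nat.div_eq_of_lt ha.2, Nat.div_eq_of_lt hb.2] using this
          have h2 : a.1 = b.1 := Nat.eq_of_mul_eq_mul_right (show 0 < B by omega) (by omega)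
          rw [h2] at h
          exact Prod.ext h2 (by omega)
      _ ≤ η * d := by rw [mul_comm η]; exact mul_le_mul_of_nonneg_left (hTsum _) hd
  have hTri : |nm p (∑ j ∈ range J, F' (s + j * B)) - nm p (∑ j ∈ Mi, F' (s + j * B))| ≤
      2 * η * d := by
    rw [hsplit]
    set A := ∑ j ∈ Lw, F' (s + j * B) with hA
    set A' := ∑ j ∈ U, F' (s + j * B) with hA'
    set C := ∑ j ∈ Mi, F' (s + j * B) with hC
    have a1 : nm p A ≤ η * d := (nm_sum_le hp _ _).trans hL
    have a2 : nm p A' ≤ η * d := (nm_sum_le hp _ _).trans hUb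
    have a3 := nm_add_le hp A (A' + C)
    have a4 := nm_add_le hp A' C
    have a5 := nm_sub_le hp C (A + (A' + C)) 0
    simp only [sub_zero] at a5
    rw [show C - (A + (A' + C)) = -(A + A') by abel, nm_neg] at a5
    have a6 := nm_add_le hp A A'
    rw [abs_le]
    constructor <;> linarith
  have hMc : Mi.card ≤ 2 := by
    rw [hMi, hrest, filter_filter]
    exact card_middle_le (by omega) s m J
  refine ⟨?_, fun hr1 hr2 => ?_⟩
  · have h1 : nm p (∑ j ∈ Mi, F' (s + j * B)) ≤ 138000 * d := by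
      refine (nm_sum_le hp _ _).trans ((sum_le_sum fun j _ => hnear _).trans ?_)
      rw [sum_const, nsmul_eq_mul]
      have : (Mi.card : ℝ) ≤ 2 := by exact_mod_cast hMc
      have := mul_le_mul_of_nonneg_right this (by positivity : 0 ≤ 69000 * d)
      linarith
    linarith [(abs_le.1 hTri).2]
  · set j0 := (m - s) / B with hj0
    have hdm : j0 * B + (m - s) % B = m - s := by
      rw [hj0, mul_comm]; exact Nat.div_add_mod _ _
    have hj0J : j0 < J := lt_of_le_of_lt ((Nat.div_le_self _ _).trans (Nat.sub_le _ _)) hmJ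
    have hMi1 : Mi = {j0} := by
      refine eq_singleton_iff_unique_mem.2 ⟨?_, fun j hj => ?_⟩
      · simp only [hMi, hrest, mem_filter, mem_range]
        exact ⟨⟨hj0J, by omega⟩, by omega⟩
      · simp only [hMi, hrest, mem_filter, mem_range] at hj
        rcases lt_trichotomy j j0 with h | h | h
        · exfalso
          have : (j + 1) * B ≤ j0 * B := Nat.mul_le_mul_right B h
          rw [add_mul, one_mul] at this
          omega
        · exact h
        · exfalso
          have : (j0 + 1) * B ≤ j * B := Nat.mul_le_mul_right B h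
          rw [add_mul, one_mul] at this
          omega
    rw [hMi1, sum_singleton] at hTri
    set n := s + j0 * B with hn
    have hn2 : n + 2 ≤ m := by omega
    have h1 := hF' n
    have h2 := hlow (n + 1) (by omega)
    have h3 := hq n
    have h4 := hqup (n + B) (by omega)
    have h5 := hqall n
    have h6 := hqall (n + B)
    have h7 := hF n
    have h8 : r0 * 2 ^ (n * w) ≤ d :=
      le_trans (mul_le_mul_of_nonneg_left
        (pow_le_pow_right₀ one_le_two (Nat.mul_le_mul_right w (by omega))) hr0.le) hm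
    have h9 := nm_sub_le hp (Q n) 0 (Q (n + B))
    rw [sub_zero, zero_sub, nm_neg] at h9
    have h10 : e * (nm p (Q n - Q (n + B)) + r0 * 2 ^ (n * w)) ≤ η * d := by
      have := mul_le_mul_of_nonneg_left
        (show nm p (Q n - Q (n + B)) + r0 * 2 ^ (n * w) ≤ 510 * d by linarith) he
      have := mul_le_mul_of_nonneg_right hηe hd
      linarith
    have b1 := nm_sub_le hp (Q n - Q (n + B)) Y 0
    have b2 := nm_sub_le hp Y (Q n - Q (n + B)) 0
    simp only [sub_zero] at b1 b2
    rw [nm_sub_comm Y] at b2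
    have b3 : nm p (Q n - Q (n + B) - Y) ≤ nm p (Q n - Y) + nm p (Q (n + B)) := by
      rw [show Q n - Q (n + B) - Y = (Q n - Y) + -Q (n + B) by abel]
      exact (nm_add_le hp _ _).trans_eq (by rw [nm_neg])
    have c1 := nm_sub_le hp (F' n) (F n) 0
    have c2 := nm_sub_le hp (F n) (F' n) 0
    simp only [sub_zero] at c1 c2
    rw [nm_sub_comm (F n)] at c2
    rw [abs_le] at h7 hTri ⊢
    have : 0 ≤ η * d := by positivity
    constructor <;> linarith

end Vale.Agent.P249.Iso
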