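import Vale.Agent.P249.Iso.LightHash
import Vale.Agent.P249.Iso.LightGate
import Vale.Agent.P249.Iso.LightPair
import Mathlib.Analysis.Complex.ExponentialBounds

/-!
Almost isometric sketches of light Lipschitz maps with few coordinates.
-/

namespace Vale.Agent.P249.Iso

open Finset Vale.Agent.P249.Dim

lemma nm_two_pt {μ : Type*} [Fintype μ] {p : ℝ} (hp : 1 ≤ p) (u v u' v' : μ → ℝ) :
    nm p (u - v - (u' - v')) ≤ nm p (u - u') + nm p (v - v') := by
  rw [show u - v - (u' - v') = (u - u') + -(v - v') by abel]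
  exact (nm_add_le hp _ _).trans_eq (by rw [nm_neg])

lemma nm_comp_equiv {μ ν : Type*} [Fintype μ] [Fintype ν] {p : ℝ} (e : μ ≃ ν) (v : ν → ℝ) :
    nm p (fun z => v (e z)) = nm p v := by
  rw [nm, nm, pw, pw, e.sum_comp fun z => |v z| ^ p]

lemma exists_scale {G : ℝ} (hG : 2 ≤ G) :
    ∃ t : ℕ, 1 ≤ t ∧ G ≤ 2 ^ t ∧ (2:ℝ) ^ t ≤ 2 * G ∧ Real.log G ≤ t := by
  set t := Nat.clog 2 ⌈G⌉₊ with ht
  have hc : 1 < ⌈G⌉₊ := by
    have := (Nat.le_ceil G)
    exact_mod_cast (show (1:ℝ) < ⌈G⌉₊ by linarith)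
  have ht1 : 1 ≤ t := Nat.clog_pos one_lt_two hc
  have h1 : G ≤ 2 ^ t := (Nat.le_ceil G).trans (by exact_mod_cast Nat.le_pow_clog one_lt_two ⌈G⌉₊)
  have h2 : (2:ℝ) ^ t ≤ 2 * G := by
    have h := Nat.pow_pred_clog_lt_self one_lt_two hc
    rw [← ht] at h
    have h' : ((2 ^ (t - 1) : ℕ) : ℝ) < G := Nat.lt_ceil.1 h
    push_cast at h'
    calc (2:ℝ) ^ t = 2 * 2 ^ (t - 1) := by rw [← pow_succ', Nat.sub_add_cancel ht1]
      _ ≤ 2 * G := by linarith
  refine ⟨t, ht1, h1, h2, ?_⟩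
  refine (Real.log_le_log (by linarith) h1).trans ?_
  rw [Real.log_pow]
  exact mul_le_of_le_one_right (Nat.cast_nonneg _) (by linarith [Real.log_two_lt_d9])

/-- Smoothed hashed bands at all windows. -/
lemma exists_bands {ι κ μ : Type*} [Fintype ι] [Fintype κ] [Fintype μ] {p : ℝ} (hp : 1 ≤ p)
    (x : ι → κ → ℝ) (y : ι → μ → ℝ) {G η e r0 : ℝ} {R : ι → ℝ} {B w Nh : ℕ} (hB : 2 ≤ B)
    (hw1 : 1 ≤ w) (hG1 : 1 ≤ G) (hr0 : 0 < r0) (he0 : 0 ≤ e) (he1 : e ≤ 1) (hη1 : η ≤ 1)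
    (hR : ∀ a b, R a ≤ R b + 2 * nm p (x a - x b)) (hyR : ∀ a, nm p (y a) ≤ R a)
    (hheavy : ∀ a r, 0 ≤ r → G < (cnt p x a r : ℝ) → R a ≤ G * r)
    (hy : ∀ a b, nm p (y a - y b) ≤ 2 * nm p (x a - x b))
    (hηw : 1000000 * (Real.log G + 1) ≤ η * w)
    (hK : ∀ v : ι → μ → ℝ, (∀ a, pw p (v a) ≤ (272 * G * 2 ^ ((B + 1) * w)) ^ p) →
      ∃ Φ : ι → Fin Nh → ℝ,
        (∀ a b, |nm p (Φ a - Φ b) - nm p (v a - v b)| ≤ e * (nm p (v a - v b) + 1)) ∧
        ∀ a, nm p (Φ a) ≤ (1 + e) * nm p (v a) + e) :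
    ∃ (q : ℕ → ι → μ → ℝ) (P W : ℕ → ι → Fin Nh → ℝ), (∀ a n, nm p (q n a - y a) ≤
        136 * (G * (r0 * 2 ^ ((n + 1) * w)))) ∧
      (∀ a b n, nm p (q n a - q n b) ≤ 253 * nm p (x a - x b)) ∧
      (∀ a b n, 4 * nm p (x a - x b) ≤ r0 * 2 ^ (n * w) →
        nm p (q n a - q n b) ≤ η * nm p (x a - x b)) ∧
      (∀ a b n, |nm p (P n a - P n b) - nm p ((q n a - q (n + B) a) - (q n b - q (n + B) b))| ≤
        e * (nm p ((q n a - q (n + B) a) - (q n b - q (n + B) b)) + r0 * 2 ^ (n * w))) ∧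
      (∀ a n, nm p (W n a - P n a) ≤ 5000 * (G * (r0 * 2 ^ ((n + 1) * w)))) ∧
      (∀ a b n, 4 * nm p (x a - x b) ≤ r0 * 2 ^ (n * w) → nm p (W n a - W n b) ≤
        nm p (x a - x b) * ((w:ℝ)⁻¹ * ∑ i ∈ range w,
          levelCost p x G R 1100 600 (r0 * 2 ^ (n * w + i)) a)) ∧
      (∀ a b n, nm p (W n a - W n b) ≤ 69000 * nm p (x a - x b)) ∧
      ∀ a (U : Finset ℕ), (w:ℝ)⁻¹ * ∑ l ∈ U, levelCost p x G R 1100 600 (r0 * 2 ^ l) a ≤ η := by
  have hp0 : 0 < p := by linarith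
  have hw0 : (0:ℝ) < w := by exact_mod_cast hw1
  have hy' : ∀ n a b, nm p (y a - y b) ≤ 2 * (nm p (x a - x b) + r0 * 2 ^ (n * w)) := fun n a b =>
    (hy a b).trans (mul_le_mul_of_nonneg_left (le_add_of_nonneg_right (by positivity)) zero_le_two)
  choose q hq1 hq2 hq3 hq4 using fun n => exists_window hp x hG1 hR y (C0 := 2) (C1 := 128)
    zero_le_two (by norm_num) hr0 hw1 n (R0 := r0 * 2 ^ (n * w)) (by positivity) le_rfl (hy' n)
    (fun a i _ hi => (hyR a).trans (by linarith))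
  have hcost : ∀ (C0 C1 : ℝ) (a : ι) (S : Finset ℕ), 0 ≤ C0 → 0 ≤ C1 → C0 ≤ 1100 → C1 ≤ 600 →
      (w:ℝ)⁻¹ * ∑ l ∈ S, levelCost p x G R C0 C1 (r0 * 2 ^ l) a ≤ η := by
    intro C0 C1 a S h0 h1 h0' h1'
    rw [inv_mul_le_iff₀ hw0, mul_comm _ η]
    refine (sum_levelCost_le hp x hG1 hheavy h0 h1 hr0 a S).trans (le_trans ?_ hηw)
    have hlog := Real.log_nonneg hG1
    have := mul_le_mul_of_nonneg_right h0' hlog
    linarith
  have hcostw : ∀ (C0 C1 : ℝ) (a : ι) (n : ℕ), 0 ≤ C0 → 0 ≤ C1 → C0 ≤ 1100 → C1 ≤ 600 →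
      (w:ℝ)⁻¹ * ∑ i ∈ range w, levelCost p x G R C0 C1 (r0 * 2 ^ (n * w + i)) a ≤ η := by
    intro C0 C1 a n h0 h1 h0' h1'
    have := hcost C0 C1 a ((range w).image fun i => n * w + i) h0 h1 h0' h1'
    rwa [sum_image (by intro i _ j _ h; simpa using h)] at this
  have hqd : ∀ n a b, nm p (q n a - q n b) ≤ 253 * nm p (x a - x b) := by
    intro n a b
    refine (hq3 n a b).trans ?_
    rw [mul_comm (253:ℝ)]
    refine mul_le_mul_of_nonneg_left ?_ (nm_nonneg _)
    linarith [hcostw 2 128 a n (by norm_num) (by norm_num) (by norm_num) (by norm_num)]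
  have hqy : ∀ n a, nm p (q n a - y a) ≤ 136 * (G * (r0 * 2 ^ ((n + 1) * w))) := fun n a =>
    (hq1 n a).trans_eq (by ring)
  set v : ℕ → ι → μ → ℝ := fun n a => (r0 * 2 ^ (n * w))⁻¹ • (q n a - q (n + B) a) with hv
  have hEn : ∀ n a, nm p (q n a - q (n + B) a) ≤
      272 * (G * (r0 * 2 ^ ((n + B + 1) * w))) := by
    intro n a
    refine (nm_sub_le hp _ (y a) _).trans ?_
    rw [nm_sub_comm (y a)]
    have h1 := hqy n a
    have h2 := hqy (n + B) a
    have h3 : G * (r0 * 2 ^ ((n + 1) * w)) ≤ G * (r0 * 2 ^ ((n + B + 1) * w)) :=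
      mul_le_mul_of_nonneg_left (mul_le_mul_of_nonneg_left
        (pow_le_pow_right₀ one_le_two (Nat.mul_le_mul_right w (by omega))) hr0.le) (by linarith)
    linarith
  have hvA : ∀ n a, pw p (v n a) ≤ (272 * G * 2 ^ ((B + 1) * w)) ^ p := by
    intro n a
    rw [← nm_rpow hp0]
    refine Real.rpow_le_rpow (nm_nonneg _) ?_ hp0.le
    rw [hv]; dsimp only
    rw [nm_smul hp0, abs_of_pos (by positivity), inv_mul_le_iff₀ (by positivity)]
    refine (hEn n a).trans (le_of_eq ?_)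
    rw [show (n + B + 1) * w = n * w + (B + 1) * w by ring, pow_add]
    ring
  choose F hF1 hF2 using fun n => hK (v n) (hvA n)
  set P : ℕ → ι → Fin Nh → ℝ := fun n a => (r0 * 2 ^ (n * w)) • F n a with hP
  have hPE : ∀ n a b, |nm p (P n a - P n b) - nm p ((q n a - q (n + B) a) - (q n b - q (n + B) b))| ≤
      e * (nm p ((q n a - q (n + B) a) - (q n b - q (n + B) b)) + r0 * 2 ^ (n * w)) := by
    intro n a b
    have hs : 0 < r0 * 2 ^ (n * w) := by positivity
    have h := mul_le_mul_of_nonneg_left (hF1 n a b) hs.le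
    rw [hv] at h
    dsimp only at h
    rw [← smul_sub, nm_smul hp0, abs_of_pos (inv_pos.2 hs)] at h
    rw [hP]; dsimp only
    rw [← smul_sub, nm_smul hp0, abs_of_pos hs]
    set N1 := nm p ((q n a - q (n + B) a) - (q n b - q (n + B) b))
    set s := r0 * 2 ^ (n * w)
    rw [← abs_of_pos hs, ← abs_mul, abs_of_pos hs, mul_sub, ← mul_assoc, mul_inv_cancel₀ hs.ne',
      one_mul] at h
    refine h.trans_eq ?_
    field_simp
  have hPc : ∀ n a b, nm p (P n a - P n b) ≤ 1100 * (nm p (x a - x b) + r0 * 2 ^ (n * w)) := by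
    intro n a b
    have h1 := (abs_le.1 (hPE n a b)).2
    have h2 : nm p ((q n a - q (n + B) a) - (q n b - q (n + B) b)) ≤ 506 * nm p (x a - x b) := by
      have e2 : (q n a - q (n + B) a) - (q n b - q (n + B) b) =
          (q n a - q n b) + -(q (n + B) a - q (n + B) b) := by abel
      rw [e2]
      refine (nm_add_le hp _ _).trans ?_
      rw [nm_neg]
      linarith [hqd n a b, hqd (n + B) a b]
    have h0 : 0 ≤ nm p (x a - x b) := nm_nonneg _
    have hs : 0 < r0 * 2 ^ (n * w) := by positivity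
    have h3 : e * (nm p ((q n a - q (n + B) a) - (q n b - q (n + B) b)) + r0 * 2 ^ (n * w)) ≤
        nm p ((q n a - q (n + B) a) - (q n b - q (n + B) b)) + r0 * 2 ^ (n * w) :=
      mul_le_of_le_one_left (add_nonneg (nm_nonneg _) hs.le) he1
    linarith
  have hPs : ∀ n a, ∀ i < w, R a < 128 * G * (r0 * 2 ^ (n * w + i)) →
      nm p (P n a) ≤ 600 * (G * (r0 * 2 ^ (n * w + i))) := by
    intro n a i hi hRa
    set r := r0 * 2 ^ (n * w + i) with hr
    have hr' : 0 < r := by positivity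
    have h1 : nm p (q n a) ≤ 256 * (G * r) := by
      refine hq2 n a _ (by positivity) fun j _ hj => ?_
      have : G * (r0 * 2 ^ (n * w + j)) ≤ 2 * (G * r) := by linarith
      have : r0 * 2 ^ (n * w + j) ≤ G * (r0 * 2 ^ (n * w + j)) :=
        le_mul_of_one_le_left (by positivity) hG1
      have : 0 ≤ G * r := by positivity
      linarith [hyR a]
    have h2 : nm p (q (n + B) a) ≤ 0 := by
      refine hq2 (n + B) a 0 le_rfl fun j _ hj => ?_
      exfalso
      have h4 := mul_le_mul_of_nonneg_left (pow_le_pow_right₀ (one_le_two (α := ℝ))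
        (show n * w + i + 1 ≤ (n + B) * w + j by
          have := Nat.mul_le_mul_right w (show n + 1 ≤ n + B by omega)
          rw [add_mul, one_mul] at this
          omega)) (mul_nonneg (by linarith : 0 ≤ 64 * G) hr0.le)
      rw [pow_succ] at h4
      rw [hr] at hRa
      linarith
    have h3 : nm p (q n a - q (n + B) a) ≤ 256 * (G * r) := by
      have := nm_sub_le hp (q n a) 0 (q (n + B) a)
      rw [sub_zero, zero_sub, nm_neg] at this
      linarith
    have hsr : r0 * 2 ^ (n * w) ≤ r :=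
      mul_le_mul_of_nonneg_left (pow_le_pow_right₀ one_le_two (Nat.le_add_right _ _)) hr0.le
    set s := r0 * 2 ^ (n * w) with hs
    have hs0 : 0 < s := by positivity
    have h5 := mul_le_mul_of_nonneg_left (hF2 n a) hs0.le
    have h6 : s * nm p (v n a) = nm p (q n a - q (n + B) a) := by
      simp only [hv]
      rw [← hs, nm_smul hp0, abs_of_pos (inv_pos.2 hs0), ← mul_assoc, mul_inv_cancel₀ hs0.ne',
        one_mul]
    rw [hP]; dsimp only
    rw [← hs, nm_smul hp0, abs_of_pos hs0]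
    have h7 : s * ((1 + e) * nm p (v n a) + e) ≤ 2 * nm p (q n a - q (n + B) a) + s := by
      have h8 := mul_le_mul_of_nonneg_right he1 (mul_nonneg hs0.le (nm_nonneg (p := p) (v n a)))
      have h9 := mul_le_mul_of_nonneg_right he1 hs0.le
      linarith
    have : r ≤ G * r := le_mul_of_one_le_left hr'.le hG1
    linarith
  choose W hW1 hW2 hW3 hW4 using fun n => exists_window hp x hG1 hR (P n) (C0 := 1100) (C1 := 600)
    (by norm_num) (by norm_num) hr0 hw1 n (R0 := r0 * 2 ^ (n * w)) (by positivity) le_rfl (hPc n)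
    (hPs n)
  refine ⟨q, P, W, fun a n => hqy n a, fun a b n => hqd n a b, fun a b n h => ?_,
    fun a b n => hPE n a b, fun a n => (hW1 n a).trans_eq (by ring),
    fun a b n h => hW4 n a b h, fun a b n => ?_,
    fun a U => hcost 1100 600 a U (by norm_num) (by norm_num) le_rfl le_rfl⟩
  · refine (hq4 n a b h).trans ?_
    rw [mul_comm η]
    exact mul_le_mul_of_nonneg_left
      (hcostw 2 128 a n (by norm_num) (by norm_num) (by norm_num) (by norm_num)) (nm_nonneg _)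
  · refine (hW3 n a b).trans ?_
    rw [mul_comm (69000:ℝ)]
    refine mul_le_mul_of_nonneg_left ?_ (nm_nonneg _)
    linarith [hcostw 1100 600 a n (by norm_num) (by norm_num) le_rfl le_rfl]

lemma sketch_dim {p G K X : ℝ} {B Kw L t w E Nh : ℕ} (hp : 0 < p) (hG : 1 ≤ G) (hL : 1 ≤ L)
    (hK : 0 ≤ K) (hX : X = (272 * (2:ℝ) ^ ((B + 1) * Kw)) ^ (2 * p)) (hw : w = Kw * t)
    (ht : (2:ℝ) ^ t ≤ 2 * G) (hE : (((B + 1) * Kw + 1 : ℕ) : ℝ) * (2 * p) ≤ E) (hE1 : 1 ≤ E)
    (hNh : (Nh:ℝ) ≤ K * ((L:ℝ) * ((272 * G * 2 ^ ((B + 1) * w)) ^ p) ^ 2) + 1) :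
    ((B * Nh : ℕ) : ℝ) ≤ B * (K * X + 1) * ((L:ℝ) * G) ^ E := by
  have hX0 : 0 ≤ X := by rw [hX]; positivity
  have h1 : ((272 * G * 2 ^ ((B + 1) * w)) ^ p) ^ 2 ≤ X * G ^ E := by
    have h2 : 272 * G * 2 ^ ((B + 1) * w) ≤
        272 * 2 ^ ((B + 1) * Kw) * G ^ ((B + 1) * Kw + 1) := by
      rw [show (B + 1) * w = t * ((B + 1) * Kw) by rw [hw]; ring, pow_mul]
      calc 272 * G * ((2:ℝ) ^ t) ^ ((B + 1) * Kw) ≤ 272 * G * (2 * G) ^ ((B + 1) * Kw) :=
            mul_le_mul_of_nonneg_left (pow_le_pow_left₀ (by positivity) ht _) (by positivity)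
        _ = _ := by rw [mul_pow, pow_succ]; ring
    rw [← Real.rpow_mul_natCast (by positivity), show p * ((2:ℕ):ℝ) = 2 * p by push_cast; ring]
    refine (Real.rpow_le_rpow (by positivity) h2 (by positivity)).trans ?_
    rw [Real.mul_rpow (by positivity) (by positivity), ← hX,
      ← Real.rpow_natCast_mul (by positivity), ← Real.rpow_natCast G E]
    exact mul_le_mul_of_nonneg_left (Real.rpow_le_rpow_of_exponent_le hG hE) hX0
  have h4 : (L:ℝ) * ((272 * G * 2 ^ ((B + 1) * w)) ^ p) ^ 2 ≤ X * ((L:ℝ) * G) ^ E := by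
    have h5 : (L:ℝ) ≤ (L:ℝ) ^ E := le_self_pow₀ (by exact_mod_cast hL) (by omega)
    refine (mul_le_mul h5 h1 (by positivity) (by positivity)).trans (le_of_eq ?_)
    rw [mul_pow]; ring
  have hLG : 1 ≤ (L:ℝ) * G := one_le_mul_of_one_le_of_one_le (by exact_mod_cast hL) hG
  have h7 := one_le_pow₀ hLG (n := E)
  have h8 := mul_le_mul_of_nonneg_left h4 hK
  push_cast
  rw [mul_assoc]
  refine mul_le_mul_of_nonneg_left ?_ (Nat.cast_nonneg _)
  linarith

/-- Shifts side by side: a few bad shifts do not matter. -/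
lemma avg_shifts {μ ν : Type*} [Fintype μ] [Fintype ν] {p : ℝ} (hp : 1 ≤ p) {B m : ℕ}
    (hB : 1 ≤ B) (hm : B ≤ m) (S : Fin B → ν → ℝ) (Y : μ → ℝ) {d g b : ℝ} (hd : 0 ≤ d)
    (hg : 0 ≤ g) (hbB : 3 * b ^ p ≤ B * g ^ p) (hb : 0 ≤ b)
    (hgood : ∀ s : Fin B, 2 ≤ (m - (s:ℕ)) % B → (m - (s:ℕ)) % B + 2 ≤ B →
      |nm p (S s) - nm p Y| ≤ g * d)
    (hall : ∀ s, |nm p (S s) - nm p Y| ≤ b * d) :
    |nm p (fun z : Fin B × ν => ((B:ℝ)⁻¹) ^ (1 / p) * S z.1 z.2) - nm p Y| ≤ 2 * g * d := by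
  classical
  have hp0 : 0 < p := by linarith
  have hB0 : (0:ℝ) < B := by exact_mod_cast hB
  set c : ℝ := ((B:ℝ)⁻¹) ^ (1 / p) with hc
  have hc0 : 0 < c := by positivity
  have hcp : c ^ p = (B:ℝ)⁻¹ := by
    rw [hc, ← Real.rpow_mul (by positivity), one_div, inv_mul_cancel₀ hp0.ne', Real.rpow_one]
  set u : Fin B → ℝ := fun s => c * nm p (S s) with hu
  set u' : Fin B → ℝ := fun _ => c * nm p Y with hu'
  have e1 : nm p (fun z : Fin B × ν => c * S z.1 z.2) = nm p u := by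
    simp only [nm]
    congr 1
    rw [pw, Fintype.sum_prod_type, pw]
    refine sum_congr rfl fun s _ => ?_
    rw [hu]; dsimp only
    rw [abs_mul c, abs_of_pos hc0, abs_of_nonneg (nm_nonneg _), Real.mul_rpow hc0.le (nm_nonneg _),
      nm_rpow hp0, pw, mul_sum]
    refine sum_congr rfl fun z _ => ?_
    rw [abs_mul, abs_of_pos hc0, Real.mul_rpow hc0.le (abs_nonneg _)]
  have e2 : nm p u' = nm p Y := by
    have h : pw p u' = nm p Y ^ p := by
      simp only [pw, hu', abs_of_nonneg (mul_nonneg hc0.le (nm_nonneg (p := p) Y)), sum_const,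
        card_univ, Fintype.card_fin, nsmul_eq_mul]
      rw [Real.mul_rpow hc0.le (nm_nonneg _), hcp, ← mul_assoc, mul_inv_cancel₀ hB0.ne', one_mul]
    rw [nm, h, ← Real.rpow_mul (nm_nonneg _), one_div, mul_inv_cancel₀ hp0.ne', Real.rpow_one]
  rw [e1, ← e2]
  suffices h : nm p (u - u') ≤ 2 * g * d by
    have h1 := nm_sub_le hp u u' 0
    have h2 := nm_sub_le hp u' u 0
    simp only [sub_zero] at h1 h2
    rw [nm_sub_comm u'] at h2
    rw [abs_le]
    constructor <;> linarith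
  set good := (univ : Finset (Fin B)).filter fun s : Fin B =>
    (m - (s:ℕ)) % B ∉ ({0, 1, B - 1} : Finset ℕ) with hgood'
  set bad := (univ : Finset (Fin B)).filter fun s : Fin B =>
    ¬ (m - (s:ℕ)) % B ∉ ({0, 1, B - 1} : Finset ℕ) with hbad
  have hbc : (bad.card : ℝ) ≤ 3 := by
    have h1 : bad.card ≤ 3 := by
      rw [hbad]
      simp only [not_not]
      exact (card_bad_shift hm _).trans card_le_three
    exact_mod_cast h1
  have hpt : ∀ s (z : ℝ), |nm p (S s) - nm p Y| ≤ z * d → 0 ≤ z →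
      |(u - u') s| ^ p ≤ (B:ℝ)⁻¹ * (z ^ p * d ^ p) := by
    intro s z h hz
    rw [Pi.sub_apply, hu, hu']
    dsimp only
    rw [← mul_sub, abs_mul, abs_of_pos hc0, Real.mul_rpow hc0.le (abs_nonneg _), hcp,
      ← Real.mul_rpow hz hd]
    exact mul_le_mul_of_nonneg_left (Real.rpow_le_rpow (abs_nonneg _) h hp0.le) (by positivity)
  refine nm_le hp0 (by positivity) ?_
  rw [pw, ← sum_filter_add_sum_filter_not univ
    (fun s : Fin B => (m - (s:ℕ)) % B ∉ ({0, 1, B - 1} : Finset ℕ)), ← hgood', ← hbad]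
  have hsum1 : ∑ s ∈ good, |(u - u') s| ^ p ≤ g ^ p * d ^ p := by
    refine (sum_le_sum fun s hs => hpt s g ?_ hg).trans ?_
    · rw [hgood', mem_filter] at hs
      simp only [mem_insert, mem_singleton, not_or] at hs
      have hlt := Nat.mod_lt (m - (s:ℕ)) (show B > 0 by omega)
      exact hgood s (by omega) (by omega)
    · rw [sum_const, nsmul_eq_mul, ← mul_assoc]
      refine mul_le_of_le_one_left (by positivity) ?_
      rw [← div_eq_mul_inv, div_le_one hB0]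
      exact_mod_cast (card_le_univ good).trans_eq (Fintype.card_fin B)
  have hsum2 : ∑ s ∈ bad, |(u - u') s| ^ p ≤ g ^ p * d ^ p := by
    refine (sum_le_sum fun s _ => hpt s b (hall s) hb).trans ?_
    rw [sum_const, nsmul_eq_mul, ← mul_assoc, ← mul_assoc]
    refine mul_le_mul_of_nonneg_right ?_ (by positivity)
    rw [← div_eq_mul_inv, div_mul_eq_mul_div, div_le_iff₀ hB0]
    have := mul_le_mul_of_nonneg_right hbc (Real.rpow_nonneg hb p)
    linarith
  have hhalf : g ^ p * d ^ p * 2 ≤ (2 * g * d) ^ p := by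
    rw [Real.mul_rpow (by positivity) hd, Real.mul_rpow zero_le_two hg]
    have h2 : (2:ℝ) ≤ 2 ^ p := by
      simpa using Real.rpow_le_rpow_of_exponent_le one_le_two hp
    have := mul_le_mul_of_nonneg_right h2 (by positivity : 0 ≤ g ^ p * d ^ p)
    linarith
  linarith

/-- A light map into `ℓ_p` has an almost isometric sketch in few coordinates. -/
theorem exists_light_sketch {p : ℝ} (hp : 1 ≤ p) {ε : ℝ} (hε : 0 < ε) :
    ∃ (C : ℝ) (E : ℕ), 0 ≤ C ∧ ∀ {ι κ μ : Type} [Fintype ι] [Fintype κ] [Fintype μ]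
      (x : ι → κ → ℝ) (y : ι → μ → ℝ) (L : ℕ) (G : ℝ), Function.Injective x → 1 ≤ L →
      Fintype.card ι < 2 ^ L → 2 ≤ G →
      (∀ a b, nm p (y a - y b) ≤ 2 * nm p (x a - x b)) →
      (∀ a r, 0 ≤ r → G < (cnt p x a r : ℝ) → nm p (y a) ≤ G * r) →
      (∀ a, ∃ r, 0 ≤ r ∧ G < (cnt p x a r : ℝ)) →
      ∃ (N : ℕ) (Φ : ι → Fin N → ℝ), (N : ℝ) ≤ C * ((L:ℝ) * G) ^ E ∧
        ∀ a b, |nm p (Φ a - Φ b) - nm p (y a - y b)| ≤ ε * nm p (x a - x b) := by
  have hp0 : 0 < p := by linarith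
  set ε1 := min ε 1 with hε1
  have hε10 : 0 < ε1 := lt_min hε one_pos
  set η := ε1 / 12 with hη
  have hη0 : 0 < η := by positivity
  have hη1 : η ≤ 1 := by
    have : ε1 ≤ 1 := min_le_right _ _
    linarith
  set e := η / 510 with he
  have he0 : 0 < e := by positivity
  have he1 : e ≤ 1 := by linarith
  obtain ⟨K, hK0, hK⟩ := exists_iso_hash hp he0
  set B : ℕ := ⌈3 * 300000 ^ p / (6 * η) ^ p⌉₊ + 4 with hBdef
  set Kw : ℕ := ⌈2000000 / η⌉₊ + 2 with hKw
  set X : ℝ := (272 * 2 ^ ((B + 1) * Kw)) ^ (2 * p) with hX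
  set E : ℕ := ⌈(((B + 1) * Kw + 1 : ℕ) : ℝ) * (2 * p)⌉₊ + 1 with hE
  have hX0 : 0 ≤ X := by positivity
  refine ⟨B * (K * X + 1), E, by positivity, ?_⟩
  intro ι κ μ _ _ _ x y L G hinj hL hn hG hy hlight hex
  classical
  have hG1 : 1 ≤ G := by linarith
  obtain ⟨R, hR0, hR, hyR, hheavy⟩ := exists_radius hp x y (by linarith) hy hlight hex
  obtain ⟨t, ht1, hGt, htG, hlogt⟩ := exists_scale hG
  set w : ℕ := Kw * t with hw
  have hw1 : 1 ≤ w := by
    rw [hw]; exact Nat.one_le_iff_ne_zero.2 (Nat.mul_ne_zero (by omega) (by omega))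
  have hw0 : (0:ℝ) < w := by exact_mod_cast hw1
  -- the two smallness properties of the window length
  have hKη : 2000000 ≤ η * (Kw - 1) := by
    have h := Nat.le_ceil (2000000 / η)
    rw [div_le_iff₀ hη0] at h
    rw [hKw]; push_cast
    linarith
  have hηw : 1000000 * (Real.log G + 1) ≤ η * w := by
    have h1 : Real.log G + 1 ≤ 2 * t := by
      have : (1:ℝ) ≤ t := by exact_mod_cast ht1
      linarith
    have h2 := mul_le_mul_of_nonneg_right hKη (Nat.cast_nonneg t : (0:ℝ) ≤ t)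
    rw [hw]; push_cast
    have : 0 ≤ η * t := by positivity
    linarith
  have hηG : 30000 * G ≤ η * 2 ^ w := by
    obtain ⟨k, hk⟩ : ∃ k, Kw = k + 1 := ⟨Kw - 1, by omega⟩
    have h1 : (k:ℝ) ≤ ((2:ℝ) ^ t) ^ k := by
      refine le_trans ?_ (pow_le_pow_left₀ (by norm_num) (le_self_pow₀ one_le_two (by omega)) k)
      exact_mod_cast (Nat.lt_two_pow_self (n := k)).le
    have h2 : (2:ℝ) ^ w = (2 ^ t) ^ k * 2 ^ t := by
      rw [hw, hk, ← pow_mul, ← pow_add]; ring_nf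
    rw [h2]
    have hKη' : 2000000 ≤ η * k := by rw [hk] at hKη; push_cast at hKη; linarith
    calc 30000 * G ≤ (η * k) * G := mul_le_mul_of_nonneg_right (by linarith) (by linarith)
      _ ≤ (η * (2 ^ t) ^ k) * 2 ^ t :=
          mul_le_mul (mul_le_mul_of_nonneg_left h1 hη0.le) hGt (by linarith) (by positivity)
      _ = _ := by ring
  -- base scale and number of windows
  set D := insert (1:ℝ) (((univ : Finset (ι × ι)).filter fun q => q.1 ≠ q.2).image
    fun q => nm p (x q.1 - x q.2)) with hD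
  set dm := D.min' (insert_nonempty _ _) with hdm
  have hdpos : ∀ a b, a ≠ b → 0 < nm p (x a - x b) := by
    intro a b hab
    refine lt_of_le_of_ne (nm_nonneg _) fun h => hab (hinj (funext fun c => ?_))
    have h1 : pw p (x a - x b) = 0 := by rw [← nm_rpow hp0, ← h, Real.zero_rpow hp0.ne']
    have h2 := (sum_eq_zero_iff_of_nonneg fun c _ => Real.rpow_nonneg (abs_nonneg _) p).1 h1 c
      (mem_univ c)
    rw [Real.rpow_eq_zero (abs_nonneg _) hp0.ne', abs_eq_zero, Pi.sub_apply, sub_eq_zero] at h2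
    exact h2
  have hdm0 : 0 < dm := by
    refine (lt_min'_iff D _).2 fun z hz => ?_
    rcases mem_insert.1 hz with rfl | hz
    · exact one_pos
    · obtain ⟨q, hq, rfl⟩ := mem_image.1 hz
      exact hdpos _ _ (mem_filter.1 hq).2
  set r0 : ℝ := dm / 2 ^ (2 * B * w) with hr0def
  have hr0 : 0 < r0 := by positivity
  have hlo : ∀ a b, a ≠ b → r0 * 2 ^ (2 * B * w) ≤ nm p (x a - x b) := fun a b h => by
    rw [hr0def, div_mul_cancel₀ _ (by positivity)]
    exact min'_le _ _ (mem_insert_of_mem (mem_image.2 ⟨(a, b), by simp [h], rfl⟩))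
  obtain ⟨J, hJ⟩ := pow_unbounded_of_one_lt ((∑ q : ι × ι, nm p (x q.1 - x q.2)) / r0) one_lt_two
  rw [div_lt_iff₀ hr0] at hJ
  set A : ℝ := (272 * G * 2 ^ ((B + 1) * w)) ^ p with hA
  have hA1 : 1 ≤ A := by
    refine Real.one_le_rpow ?_ hp0.le
    have := one_le_pow₀ (M₀ := ℝ) one_le_two (n := (B + 1) * w)
    nlinarith
  obtain ⟨q, P, W, hq, hqd, hqup, hPE, hWP, hWup, hWd, hcost⟩ :=
    exists_bands hp x y (show 2 ≤ B by omega) hw1 hG1 hr0 he0.le he1 hη1 hR hyR hheavy hy hηw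
      (fun v hv => hK (ι := ι) (μ := μ) L A hL hn hA1 v hv)
  refine ⟨B * ⌈K * ((L:ℝ) * A ^ 2)⌉₊, fun a z => ((B:ℝ)⁻¹) ^ (1 / p) *
    (∑ j ∈ range J, W (((finProdFinEquiv.symm z).1 : ℕ) + j * B) a) (finProdFinEquiv.symm z).2,
    sketch_dim hp0 hG1 hL hK0 hX hw htG ?_ (by omega)
      (Nat.ceil_lt_add_one (by positivity)).le, fun a b => ?_⟩
  · rw [hE]; push_cast
    have := Nat.le_ceil ((((B + 1) * Kw + 1 : ℕ) : ℝ) * (2 * p))
    push_cast at this
    linarith
  rcases eq_or_ne a b with hab | hab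
  · subst hab
    simp only [sub_self]
    rw [show nm p (0 : μ → ℝ) = 0 from nm_zero hp0, show nm p (0 : κ → ℝ) = 0 from nm_zero hp0,
      show nm p (0 : Fin (B * ⌈K * ((L:ℝ) * A ^ 2)⌉₊) → ℝ) = 0 from nm_zero hp0]
    simp
  have e1 : ((fun z => ((B:ℝ)⁻¹) ^ (1 / p) * (∑ j ∈ range J,
        W (((finProdFinEquiv.symm z).1 : ℕ) + j * B) a) (finProdFinEquiv.symm z).2) -
      fun z => ((B:ℝ)⁻¹) ^ (1 / p) * (∑ j ∈ range J,
        W (((finProdFinEquiv.symm z).1 : ℕ) + j * B) b) (finProdFinEquiv.symm z).2) =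
      fun z : Fin (B * ⌈K * ((L:ℝ) * A ^ 2)⌉₊) => ((B:ℝ)⁻¹) ^ (1 / p) *
        (∑ j ∈ range J, (W (((finProdFinEquiv.symm z).1 : ℕ) + j * B) a -
          W (((finProdFinEquiv.symm z).1 : ℕ) + j * B) b)) (finProdFinEquiv.symm z).2 := by
    funext z
    simp only [Pi.sub_apply, Finset.sum_apply, sum_sub_distrib, mul_sub]
  rw [e1, nm_comp_equiv finProdFinEquiv.symm (fun z : Fin B × Fin ⌈K * ((L:ℝ) * A ^ 2)⌉₊ =>
    ((B:ℝ)⁻¹) ^ (1 / p) * (∑ j ∈ range J, (W ((z.1 : ℕ) + j * B) a - W ((z.1 : ℕ) + j * B) b)) z.2)]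
  set d := nm p (x a - x b) with hd
  have hd0 : 0 ≤ d := nm_nonneg _
  obtain ⟨l, hl1, hl2⟩ := exists_dyadic hr0
    ((le_mul_of_one_le_right hr0.le (one_le_pow₀ one_le_two)).trans (hlo a b hab))
  rw [← hd] at hl1 hl2
  set m := l / w with hm
  have hlm : l < (m + 1) * w := by
    have := Nat.lt_div_mul_add (a := l) (show 0 < w by omega)
    rw [add_mul, one_mul]; exact this
  have hm1 : r0 * 2 ^ (m * w) ≤ d := le_trans (mul_le_mul_of_nonneg_left
    (pow_le_pow_right₀ one_le_two (Nat.div_mul_le_self _ _)) hr0.le) hl1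
  have hm2 : d < r0 * 2 ^ ((m + 1) * w) :=
    lt_of_lt_of_le hl2 (mul_le_mul_of_nonneg_left (pow_le_pow_right₀ one_le_two hlm) hr0.le)
  have hmB : 2 * B ≤ m := by
    rw [hm, Nat.le_div_iff_mul_le (by omega)]
    by_contra hcon
    have h1 := mul_le_mul_of_nonneg_left (pow_le_pow_right₀ (one_le_two (α := ℝ))
      (show l + 1 ≤ 2 * B * w by omega)) hr0.le
    have h2 := hlo a b hab
    rw [← hd] at h2
    linarith
  have hmJ : m < J := by
    refine lt_of_le_of_lt (Nat.div_le_self _ _) ?_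
    by_contra hcon
    have h1 := mul_le_mul_of_nonneg_left (pow_le_pow_right₀ (one_le_two (α := ℝ))
      (show J ≤ l by omega)) hr0.le
    have h2 := single_le_sum (f := fun q : ι × ι => nm p (x q.1 - x q.2))
      (fun q _ => nm_nonneg _) (mem_univ (a, b))
    simp only [← hd] at h2
    linarith
  have hfar : ∀ n, m + 2 ≤ n → 4 * d ≤ r0 * 2 ^ (n * w) := by
    intro n hn
    have h1 := mul_le_mul_of_nonneg_left (pow_le_pow_right₀ (one_le_two (α := ℝ))
      (Nat.mul_le_mul_right w hn)) hr0.le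
    rw [show (m + 2) * w = (m + 1) * w + w by ring, pow_add] at h1
    have h2 : (4:ℝ) ≤ 2 ^ w := by
      calc (4:ℝ) = 2 ^ 2 := by norm_num
        _ ≤ _ := pow_le_pow_right₀ one_le_two (by
          rw [hw]; exact le_trans (by omega : 2 ≤ Kw) (Nat.le_mul_of_pos_right _ ht1))
    have h3 := mul_le_mul hm2.le h2 (by norm_num) (by positivity)
    linarith
  have hshift := fun s : Fin B => pair_shift hp (y a - y b) (fun n => q n a - q n b)
    (fun n => P n a - P n b) (fun n => W n a - W n b)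
    (fun l => levelCost p x G R 1100 600 (r0 * 2 ^ l) a) (e := e) (s := s) (show 4 ≤ B by omega)
    hw1 hd0 hG1 he0.le hr0
    (fun l => levelCost_nonneg hp0 x R (by norm_num) (by norm_num) (by positivity) a)
    hm1 (by omega) hmJ hηG (by rw [he]; linarith) he1 (hcost a)
    (fun n => (nm_two_pt hp _ _ _ _).trans (by linarith [hq a n, hq b n]))
    (hqd a b) (fun n hn => hqup a b n (hfar n hn))
    (fun n => by
      rw [show q n a - q n b - (q (n + B) a - q (n + B) b) =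
        (q n a - q (n + B) a) - (q n b - q (n + B) b) by abel]
      exact hPE a b n)
    (fun n => (nm_two_pt hp _ _ _ _).trans (by linarith [hWP a n, hWP b n]))
    (fun n hn => hWup a b n (hfar n hn)) (hWd a b)
  refine (avg_shifts hp (show 1 ≤ B by omega) (show B ≤ m by omega)
    (fun s : Fin B => ∑ j ∈ range J, (W ((s:ℕ) + j * B) a - W ((s:ℕ) + j * B) b))
    (y a - y b) hd0 (g := 6 * η) (b := 300000) (by positivity) ?_ (by norm_num)
    (fun s h1 h2 => (hshift s).2 h1 h2) fun s => ?_).trans ?_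
  · have hpos : 0 < (6 * η) ^ p := by positivity
    have := Nat.le_ceil (3 * 300000 ^ p / (6 * η) ^ p)
    rw [div_le_iff₀ hpos] at this
    rw [hBdef]; push_cast
    linarith
  · have h := (hshift s).1
    have h1 := hy a b
    rw [← hd] at h1
    have h2 : η * d ≤ 1 * d := mul_le_mul_of_nonneg_right hη1 hd0
    have h3 := nm_nonneg (p := p) (y a - y b)
    have h4 := nm_nonneg (p := p) (∑ j ∈ range J, (W ((s:ℕ) + j * B) a - W ((s:ℕ) + j * B) b))
    rw [abs_le]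
    constructor <;> linarith
  · rw [hη, show 2 * (6 * (ε1 / 12)) * d = ε1 * d by ring]
    exact mul_le_mul_of_nonneg_right (min_le_left _ _) hd0

end Vale.Agent.P249.Iso
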