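import Vale.Agent.P249.Iso.LightPieces
import Vale.Agent.P249.Dim.Hash

/-!
Random buckets with signs: vectors of bounded norm are mapped almost isometrically, up to an
additive error, to a number of coordinates polynomial in the bound.
-/

namespace Vale.Agent.P249.Iso

open Finset Vale.Agent.P249.Dim

/-- Independent samples with all sums close to their means, with a small additive error. -/
lemma exists_close_sample {Ω P : Type*} [Fintype Ω] [Fintype P] (w : Ω → ℝ) (hw0 : ∀ ω, 0 ≤ w ω)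
    (hw1 : ∑ ω, w ω = 1) (Z : P → Ω → ℝ) (hZ0 : ∀ q ω, 0 ≤ Z q ω) (hZ1 : ∀ q ω, Z q ω ≤ 1)
    {lam : ℝ} (hlam : 0 < lam) (hlam1 : lam ≤ 1) (m : ℕ) {t : ℝ}
    (hcard : 2 * (Fintype.card P : ℝ) * Real.exp (-t) < 1) :
    ∃ ω : Fin m → Ω, ∀ q, |∑ i, Z q (ω i) - m * ∑ o, w o * Z q o| ≤
      lam * (m * ∑ o, w o * Z q o) + t / lam := by
  classical
  set u : P → ℝ := fun q => ∑ o, w o * Z q o with hu
  set W : (Fin m → Ω) → ℝ := fun ω => ∏ i, w (ω i) with hW
  have hW0 : ∀ ω, 0 ≤ W ω := fun ω => prod_nonneg fun i _ => hw0 _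
  have hW1 : ∑ ω, W ω = 1 := by rw [hW, ← Fintype.sum_pow, hw1, one_pow]
  set G : P → (Fin m → Ω) → ℝ := fun q ω =>
    Real.exp (lam * (∑ i, Z q (ω i)) + (-(m * (lam * u q + lam ^ 2 * u q)) - t)) +
      Real.exp (-lam * (∑ i, Z q (ω i)) + (-(m * (-lam * u q + (-lam) ^ 2 * u q)) - t)) with hG
  have key : ∀ (g : Ω → ℝ) (c : ℝ), ∑ ω : Fin m → Ω, W ω * Real.exp (∑ i, g (ω i) + c) =
      (∑ ω, w ω * Real.exp (g ω)) ^ m * Real.exp c := by
    intro g c
    rw [Fintype.sum_pow, Finset.sum_mul]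
    refine Finset.sum_congr rfl fun ω _ => ?_
    rw [Real.exp_add, Real.exp_sum, Finset.prod_mul_distrib, mul_assoc]
  have mom : ∀ (q : P) (l : ℝ), |l| ≤ 1 →
      ∑ ω, w ω * Real.exp (l * Z q ω) ≤ Real.exp (l * u q + l ^ 2 * u q) := by
    intro q l hl
    calc ∑ ω, w ω * Real.exp (l * Z q ω)
        ≤ ∑ ω, (w ω + (l + l ^ 2) * (w ω * Z q ω)) := by
          refine sum_le_sum fun ω _ => ?_
          have hz : |l * Z q ω| ≤ 1 := by
            rw [abs_mul, abs_of_nonneg (hZ0 q ω)]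
            exact mul_le_one₀ hl (hZ0 q ω) (hZ1 q ω)
          have h1 := Real.abs_exp_sub_one_sub_id_le hz
          have h2 := le_abs_self (Real.exp (l * Z q ω) - 1 - l * Z q ω)
          have h3 : (l * Z q ω) ^ 2 ≤ l ^ 2 * Z q ω := by
            rw [mul_pow]
            exact mul_le_mul_of_nonneg_left (by nlinarith [hZ0 q ω, hZ1 q ω]) (sq_nonneg l)
          nlinarith [hw0 ω]
      _ = (l * u q + l ^ 2 * u q) + 1 := by
          rw [sum_add_distrib, hw1, ← mul_sum, ← show u q = ∑ o, w o * Z q o from rfl]; ring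
      _ ≤ _ := Real.add_one_le_exp _
  have tail : ∀ (q : P) (l : ℝ), |l| ≤ 1 → ∑ ω, W ω * Real.exp (l * (∑ i, Z q (ω i)) +
      (-(m * (l * u q + l ^ 2 * u q)) - t)) ≤ Real.exp (-t) := by
    intro q l hl
    simp only [mul_sum]
    rw [key (fun ω => l * Z q ω)]
    calc _ ≤ Real.exp (l * u q + l ^ 2 * u q) ^ m *
          Real.exp (-(m * (l * u q + l ^ 2 * u q)) - t) := by
          refine mul_le_mul_of_nonneg_right (pow_le_pow_left₀ ?_ (mom q l hl) m) (Real.exp_pos _).le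
          exact sum_nonneg fun ω _ => mul_nonneg (hw0 ω) (Real.exp_pos _).le
      _ = _ := by rw [← Real.exp_nat_mul, ← Real.exp_add]; ring_nf
  have hl0 : |lam| ≤ 1 := by rw [abs_of_pos hlam]; exact hlam1
  have hsum : ∑ ω, W ω * ∑ q, G q ω < 1 := by
    refine lt_of_le_of_lt ?_ hcard
    simp only [mul_sum]
    rw [Finset.sum_comm]
    calc _ ≤ ∑ _q : P, 2 * Real.exp (-t) := sum_le_sum fun q _ => by
          simp only [hG, mul_add, sum_add_distrib]
          have a := tail q lam hl0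
          have b := tail q (-lam) (by rwa [abs_neg])
          simp only [mul_add] at a b
          linarith
      _ = _ := by simp; ring
  obtain ⟨ω, hω⟩ : ∃ ω, ∑ q, G q ω < 1 := by
    by_contra hcon
    push Not at hcon
    have : (1:ℝ) ≤ ∑ ω, W ω * ∑ q, G q ω := by
      rw [← hW1]
      exact sum_le_sum fun ω _ => le_mul_of_one_le_right (hW0 ω) (hcon ω)
    linarith
  refine ⟨ω, fun q => ?_⟩
  have h4 : G q ω < 1 := lt_of_le_of_lt
    (single_le_sum (f := fun q => G q ω) (fun q _ => by positivity) (mem_univ q)) hω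
  simp only [hG] at h4
  have h5 := Real.exp_pos (lam * (∑ i, Z q (ω i)) + (-(m * (lam * u q + lam ^ 2 * u q)) - t))
  have h6 := Real.exp_pos (-lam * (∑ i, Z q (ω i)) +
    (-(m * (-lam * u q + (-lam) ^ 2 * u q)) - t))
  have h7 := Real.exp_lt_one_iff.1 (show Real.exp (lam * (∑ i, Z q (ω i)) +
    (-(m * (lam * u q + lam ^ 2 * u q)) - t)) < 1 by linarith)
  have h8 := Real.exp_lt_one_iff.1 (show Real.exp (-lam * (∑ i, Z q (ω i)) +
    (-(m * (-lam * u q + (-lam) ^ 2 * u q)) - t)) < 1 by linarith)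
  rw [show (∑ o, w o * Z q o) = u q from rfl, abs_le]
  have e : lam * (t / lam) = t := by field_simp
  constructor <;> refine le_of_mul_le_mul_left ?_ hlam <;> nlinarith

/-- Random signed buckets. -/
lemma exists_signed_hash {ι κ : Type*} [Fintype ι] [Fintype κ] {p : ℝ} (hp : 1 ≤ p)
    (φ : ι → κ → ℝ) (b : κ → ℝ) (hb : ∀ c, 0 < b c) (h1 : ∀ x c, |φ x c| ≤ b c) {a B lam : ℝ}
    (ha : 1 ≤ a) (hB : 2 * a ≤ B) (hlam : 0 < lam) (hlam1 : lam ≤ 1)
    (hload : ∀ x, ∑ c ∈ univ.filter (fun c => φ x c ≠ 0), b c ^ p ≤ a)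
    {k : ℕ} (hn : Fintype.card ι < 2 ^ k) (m : ℕ) (hm : 1 ≤ m) :
    ∃ Φ : ι → Fin m → ℝ, ∀ x y, |pw p (Φ x - Φ y) - pw p (φ x - φ y)| ≤
      lam * pw p (φ x - φ y) + (1 + lam) * (2 ^ p * (8 * a ^ 2) / B) +
        2 ^ p * B * (3 * k) / (lam * m) := by
  classical
  have hp0 : 0 < p := by linarith
  have hB0 : 0 < B := by linarith
  set π : κ → ℝ := fun c => min (b c ^ p / B) 1 with hπ
  have hbp : ∀ c, 0 < b c ^ p := fun c => Real.rpow_pos_of_pos (hb c) p
  have hπ0 : ∀ c, 0 ≤ π c := fun c => le_min (div_nonneg (hbp c).le hB0.le) zero_le_one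
  have hπ1 : ∀ c, π c ≤ 1 := fun c => min_le_right _ _
  set v : (κ → Bool) → ι → ℝ := fun σ x => clamp 1 (∑ c, chi (σ c) * (φ x c / b c)) / 2 with hv
  set Z : ι × ι → (κ → Bool) → ℝ := fun q σ => |v σ q.1 - v σ q.2| ^ p with hZ
  have hu1 : ∀ x c, |φ x c / b c| ≤ 1 := fun x c => by
    rw [abs_div, abs_of_pos (hb c), div_le_one (hb c)]; exact h1 x c
  have hvb : ∀ σ x, |v σ x| ≤ 1 / 2 := fun σ x => by
    rw [hv]; dsimp only; rw [abs_div, abs_two]
    exact div_le_div_of_nonneg_right (abs_clamp_le zero_le_one _) zero_le_two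
  have hZ0 : ∀ q σ, 0 ≤ Z q σ := fun q σ => Real.rpow_nonneg (abs_nonneg _) p
  have hZ1 : ∀ q σ, Z q σ ≤ 1 := fun q σ => Real.rpow_le_one (abs_nonneg _)
    ((abs_sub _ _).trans (by linarith [hvb σ q.1, hvb σ q.2])) hp0.le
  set T : ι × ι → κ → ℝ := fun q c => (|φ q.1 c / b c - φ q.2 c / b c| / 2) ^ p with hT
  have hT0 : ∀ q c, 0 ≤ T q c := fun q c => Real.rpow_nonneg (by positivity) p
  have hT1 : ∀ q c, T q c ≤ 1 := fun q c => Real.rpow_le_one (by positivity)
    (by rw [div_le_one two_pos]; exact (abs_sub _ _).trans (by linarith [hu1 q.1 c, hu1 q.2 c]))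
    hp0.le
  have hest : ∀ x y, |∑ σ, bern π σ * Z (x, y) σ - pw p (φ x - φ y) / (2 ^ p * B)| ≤
      8 * a ^ 2 / B ^ 2 := by
    intro x y
    set P := univ.filter (fun c => φ x c ≠ 0 ∨ φ y c ≠ 0) with hP
    have hPz : ∀ c ∉ P, φ x c = 0 ∧ φ y c = 0 := by
      intro c hc
      simpa [hP, not_or] using hc
    have hPload : ∑ c ∈ P, b c ^ p ≤ 2 * a := by
      have : P = univ.filter (fun c => φ x c ≠ 0) ∪ univ.filter (fun c => φ y c ≠ 0) :=
        filter_or _ _ _
      rw [this]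
      refine le_trans ?_ (by linarith [hload x, hload y] :
        ∑ c ∈ univ.filter (fun c => φ x c ≠ 0), b c ^ p +
          ∑ c ∈ univ.filter (fun c => φ y c ≠ 0), b c ^ p ≤ 2 * a)
      rw [← sum_union_inter]
      exact le_add_of_nonneg_right (sum_nonneg fun c _ => (hbp c).le)
    have hπP : ∀ c ∈ P, π c = b c ^ p / B := by
      intro c hc
      refine min_eq_left ((div_le_one hB0).2 ?_)
      have := single_le_sum (f := fun c => b c ^ p) (fun c _ => (hbp c).le) hc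
      linarith
    clear_value P
    set w := ∑ c ∈ P, π c with hw
    have hw2 : w ≤ 2 * a / B := by
      rw [hw, sum_congr rfl hπP, ← sum_div]
      exact div_le_div_of_nonneg_right hPload hB0.le
    have hw0 : 0 ≤ w := sum_nonneg fun c _ => hπ0 c
    have hμeq : pw p (φ x - φ y) / (2 ^ p * B) = ∑ c ∈ P, π c * T (x, y) c := by
      rw [pw, sum_div, ← sum_subset (subset_univ P) (fun c _ hc => by
        simp [hPz c hc, Real.zero_rpow hp0.ne'])]
      refine sum_congr rfl fun c hc => ?_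
      rw [hπP c hc]
      simp only [hT, Pi.sub_apply]
      rw [← sub_div, abs_div, abs_of_pos (hb c), Real.div_rpow (div_nonneg (abs_nonneg _) (hb c).le) zero_le_two,
        Real.div_rpow (abs_nonneg _) (hb c).le]
      have := (hbp c).ne'
      have := hB0.ne'
      field_simp
    have hm1 : ∀ f : κ → ℝ, ∑ σ, bern π σ * ∑ c ∈ P, chi (σ c) * f c = ∑ c ∈ P, π c * f c := by
      intro f
      simp only [mul_sum]
      rw [Finset.sum_comm]
      refine sum_congr rfl fun c _ => ?_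
      have := bern_marginal π {c}
      simp only [prod_singleton] at this
      rw [← this, sum_mul]
      exact sum_congr rfl fun σ _ => by ring
    have hm2 : ∑ σ, bern π σ * ∑ c ∈ P, ∑ d ∈ P.erase c, chi (σ c) * chi (σ d) =
        ∑ c ∈ P, ∑ d ∈ P.erase c, π c * π d := by
      simp only [mul_sum]
      rw [Finset.sum_comm]
      refine sum_congr rfl fun c _ => ?_
      rw [Finset.sum_comm]
      refine sum_congr rfl fun d hd => ?_
      have := bern_marginal π {c, d}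
      simp only [prod_pair (ne_of_mem_erase hd).symm] at this
      exact this
    have hpair : ∑ c ∈ P, ∑ d ∈ P.erase c, π c * π d ≤ w * w := by
      rw [hw, sum_mul]
      refine sum_le_sum fun c _ => ?_
      rw [mul_sum]
      exact sum_le_sum_of_subset_of_nonneg (erase_subset c P) fun d _ _ =>
        mul_nonneg (hπ0 c) (hπ0 d)
    have hpt : ∀ σ, |Z (x, y) σ - ∑ c ∈ P, chi (σ c) * T (x, y) c| ≤
        2 * ∑ c ∈ P, ∑ d ∈ P.erase c, chi (σ c) * chi (σ d) := by
      intro σ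
      set S := P.filter (fun c => σ c = true) with hS
      have e1 : ∀ f : κ → ℝ, ∑ c ∈ P, chi (σ c) * f c = ∑ c ∈ S, f c := by
        intro f
        rw [hS, sum_filter]
        exact sum_congr rfl fun c _ => by cases σ c <;> simp [chi]
      have e2 : ∑ c ∈ P, ∑ d ∈ P.erase c, chi (σ c) * chi (σ d) =
          ∑ c ∈ S, ((S.erase c).card : ℝ) := by
        rw [← e1]
        refine sum_congr rfl fun c _ => ?_
        rw [hS, ← filter_erase, card_filter, Nat.cast_sum, mul_sum]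
        exact sum_congr rfl fun d _ => by cases σ c <;> cases σ d <;> simp [chi]
      have ev : ∀ z, (z = x ∨ z = y) → v σ z = clamp 1 (∑ c ∈ S, φ z c / b c) / 2 := by
        intro z hz
        rw [hv, ← e1]
        dsimp only
        congr 2
        refine (sum_subset (subset_univ P) fun c _ hc => ?_).symm
        rcases hz with rfl | rfl <;> simp [hPz c hc]
      rw [e1, e2]
      rcases Nat.lt_or_ge S.card 2 with hS2 | hS2
      · rw [sum_eq_zero (fun c hc => by
          rw [card_erase_of_mem hc]; norm_num; omega : ∀ c ∈ S, ((S.erase c).card : ℝ) = 0),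
          mul_zero]
        refine le_of_eq (abs_eq_zero.2 (sub_eq_zero.2 ?_))
        simp only [hZ]
        rw [ev x (Or.inl rfl), ev y (Or.inr rfl)]
        rcases S.eq_empty_or_nonempty with he | ⟨c, hc⟩
        · simp [he, Real.zero_rpow hp0.ne']
        · have : S = {c} := eq_singleton_iff_unique_mem.2
            ⟨hc, fun d hd => card_le_one.1 (by omega) d hd c hc⟩
          simp only [this, sum_singleton, clamp_eq_self (hu1 x c), clamp_eq_self (hu1 y c), hT]
          rw [← sub_div, abs_div, abs_two]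
      · have hcs : (S.card : ℝ) ≤ ∑ c ∈ S, ((S.erase c).card : ℝ) := by
          rw [card_eq_sum_ones, Nat.cast_sum]
          refine sum_le_sum fun c hc => ?_
          exact_mod_cast (by rw [card_erase_of_mem hc]; omega : 1 ≤ (S.erase c).card)
        have hc1 : (1:ℝ) ≤ S.card := by exact_mod_cast (by omega : 1 ≤ S.card)
        have hTs : ∑ c ∈ S, T (x, y) c ≤ S.card := by
          rw [card_eq_sum_ones, Nat.cast_sum]
          exact sum_le_sum fun c _ => by simpa using hT1 _ c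
        have hTn : 0 ≤ ∑ c ∈ S, T (x, y) c := sum_nonneg fun c _ => hT0 _ c
        rw [abs_le]
        constructor <;> linarith [hZ0 (x, y) σ, hZ1 (x, y) σ]
    rw [hμeq, ← hm1, ← sum_sub_distrib]
    calc _ ≤ ∑ σ, bern π σ * (2 * ∑ c ∈ P, ∑ d ∈ P.erase c, chi (σ c) * chi (σ d)) := by
          refine (abs_sum_le_sum_abs _ _).trans (sum_le_sum fun σ _ => ?_)
          rw [← mul_sub, abs_mul, abs_of_nonneg (bern_nonneg hπ0 hπ1 σ)]
          exact mul_le_mul_of_nonneg_left (hpt σ) (bern_nonneg hπ0 hπ1 σ)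
      _ = 2 * ∑ c ∈ P, ∑ d ∈ P.erase c, π c * π d := by
          rw [← hm2, mul_sum]; exact sum_congr rfl fun σ _ => by ring
      _ ≤ 2 * (2 * a / B * (2 * a / B)) := by
          have := hw0.trans hw2
          exact mul_le_mul_of_nonneg_left (hpair.trans (mul_le_mul hw2 hw2 hw0 this)) zero_le_two
      _ = _ := by field_simp; ring
  obtain ⟨ω, hω⟩ := exists_close_sample (bern π) (bern_nonneg hπ0 hπ1) (bern_sum π) Z hZ0 hZ1
    hlam hlam1 m (t := 3 * (k:ℝ)) (by rw [Fintype.card_prod]; exact card_pairs_exp hn)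
  have hm0 : (0:ℝ) < m := by exact_mod_cast hm
  set C : ℝ := 2 ^ p * B / m with hC
  have hC0 : 0 < C := by positivity
  refine ⟨fun x i => C ^ (1 / p) * v (ω i) x, fun x y => ?_⟩
  have hpw : pw p ((fun i => C ^ (1 / p) * v (ω i) x) - fun i => C ^ (1 / p) * v (ω i) y) =
      C * ∑ i, Z (x, y) (ω i) := by
    rw [pw, mul_sum]
    refine sum_congr rfl fun i _ => ?_
    simp only [Pi.sub_apply, hZ]
    rw [← mul_sub, abs_mul, Real.mul_rpow (abs_nonneg _) (abs_nonneg _),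
      abs_of_nonneg (by positivity), ← Real.rpow_mul (by positivity), one_div,
      inv_mul_cancel₀ hp0.ne', Real.rpow_one]
  rw [hpw]
  set μ := pw p (φ x - φ y) with hμ
  set u := ∑ σ, bern π σ * Z (x, y) σ with hu
  have h2 := hω (x, y)
  have h3 := hest x y
  rw [← hu] at h2
  rw [← hu, ← hμ] at h3
  rw [abs_le] at h2 h3
  have e1 : C * (m * u) = 2 ^ p * B * u := by rw [hC]; field_simp
  have e2 : C * (3 * (k:ℝ) / lam) = 2 ^ p * B * (3 * k) / (lam * m) := by rw [hC]; field_simp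
  have e3 : 2 ^ p * B * (8 * a ^ 2 / B ^ 2) = 2 ^ p * (8 * a ^ 2) / B := by field_simp
  have e4 : 2 ^ p * B * (μ / (2 ^ p * B)) = μ := by field_simp
  have h4 := mul_le_mul_of_nonneg_left h2.1 hC0.le
  have h5 := mul_le_mul_of_nonneg_left h2.2 hC0.le
  have hK : 0 ≤ 2 ^ p * B := by positivity
  have h6 := mul_le_mul_of_nonneg_left h3.1 hK
  have h7 := mul_le_mul_of_nonneg_left h3.2 hK
  have h8 := mul_le_mul_of_nonneg_left h7 hlam.le
  simp only [mul_sub, mul_add, mul_neg, e1, e2, e3, e4, mul_left_comm C lam] at h4 h5 h6 h7 h8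
  rw [abs_le]
  constructor <;> linarith

/-- Close powers of norms give close norms. -/
lemma nm_close {κ κ' : Type*} [Fintype κ] [Fintype κ'] {p η : ℝ} (hp : 1 ≤ p) (hη : 0 < η)
    (u : κ → ℝ) (w : κ' → ℝ) (h : |pw p u - pw p w| ≤ η ^ p * (pw p w + 1)) :
    |nm p u - nm p w| ≤ η * (nm p w + 1) := by
  have hp0 : 0 < p := by linarith
  set s := nm p u with hs
  set t := nm p w with ht
  have hs0 : 0 ≤ s := nm_nonneg _
  have ht0 : 0 ≤ t := nm_nonneg _
  have hes : pw p u = s ^ p := (nm_rpow hp0 u).symm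
  have het : pw p w = t ^ p := (nm_rpow hp0 w).symm
  rw [hes, het] at h
  refine (Real.rpow_le_rpow_iff (abs_nonneg _) (by positivity) hp0).1 ?_
  rw [Real.mul_rpow hη.le (by positivity)]
  have h1 : t ^ p + 1 ≤ (t + 1) ^ p := by
    simpa using rpow_add_super hp ht0 zero_le_one
  refine le_trans ?_ (mul_le_mul_of_nonneg_left h1 (by positivity))
  refine le_trans ?_ h
  rcases le_total t s with h' | h'
  · rw [abs_of_nonneg (sub_nonneg.2 h')]
    have := rpow_add_super hp ht0 (sub_nonneg.2 h')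
    rw [show t + (s - t) = s by ring] at this
    exact le_trans (by linarith) (le_abs_self _)
  · rw [abs_sub_comm, abs_of_nonneg (sub_nonneg.2 h')]
    have := rpow_add_super hp hs0 (sub_nonneg.2 h')
    rw [show s + (t - s) = t by ring] at this
    rw [abs_sub_comm (s ^ p)]
    exact le_trans (by linarith) (le_abs_self _)

lemma budget_le {P B δ lam m k Ga Q A L : ℝ} (hP : 0 ≤ P * B) (hδ : 0 < δ) (hlam : 0 < lam)
    (hm : 0 < m) (hk : k ≤ 2 * L) (hB : B = Q * Ga ^ 2 * A ^ 2)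
    (h : P * Q * Ga ^ 2 * 6 / (lam * (δ / 8)) * (L * A ^ 2) ≤ m) :
    P * B * (3 * k) / (lam * m) ≤ δ / 8 := by
  have hd : 0 < lam * (δ / 8) := by positivity
  rw [div_mul_eq_mul_div, div_le_iff₀ hd] at h
  rw [div_le_iff₀ (by positivity)]
  have h1 : P * B * (3 * k) ≤ P * B * (6 * L) := mul_le_mul_of_nonneg_left (by linarith) hP
  refine h1.trans (le_trans (le_of_eq ?_) (h.trans_eq (by ring)))
  rw [hB]; ring

lemma combine_le {δ lam x r q μ0 φ0 err : ℝ} (hδ : 0 < δ) (hδ1 : δ ≤ 1) (hlam : lam = δ / 4)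
    (hr0 : 0 ≤ r) (hq0 : 0 ≤ q) (hr : r ≤ δ / 8) (hq : q ≤ δ / 8) (h1 : φ0 ≤ μ0)
    (h2 : (1 - r) * (1 - q) * μ0 ≤ φ0) (hμ : 0 ≤ μ0)
    (h5 : |x - φ0| ≤ lam * φ0 + (1 + lam) * (δ / 8) + err) (h6 : err ≤ δ / 8) :
    |x - μ0| ≤ δ * (μ0 + 1) := by
  have h2' : (1 - δ / 4) * μ0 ≤ φ0 := by
    refine le_trans (mul_le_mul_of_nonneg_right ?_ hμ) h2
    have := mul_nonneg hr0 hq0
    linarith
  have h7 : lam * φ0 ≤ δ / 4 * μ0 := by
    rw [hlam]; exact mul_le_mul_of_nonneg_left h1 (by positivity)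
  have h8 : (1 + lam) * (δ / 8) ≤ δ / 4 := by
    rw [hlam]; nlinarith
  have h9 : 0 ≤ δ * μ0 := by positivity
  rw [abs_le] at h5 ⊢
  constructor <;> linarith

/-- Almost isometric maps of bounded vectors into few coordinates. -/
theorem exists_iso_hash {p : ℝ} (hp : 1 ≤ p) {ε : ℝ} (hε : 0 < ε) :
    ∃ K : ℝ, 0 ≤ K ∧ ∀ {ι μ : Type} [Fintype ι] [Fintype μ] (L : ℕ) (A : ℝ), 1 ≤ L →
      Fintype.card ι < 2 ^ L → 1 ≤ A → ∀ v : ι → μ → ℝ, (∀ a, pw p (v a) ≤ A) →
        ∃ Φ : ι → Fin ⌈K * (L * A ^ 2)⌉₊ → ℝ,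
          (∀ a b, |nm p (Φ a - Φ b) - nm p (v a - v b)| ≤ ε * (nm p (v a - v b) + 1)) ∧
          ∀ a, nm p (Φ a) ≤ (1 + ε) * nm p (v a) + ε := by
  have hp0 : 0 < p := by linarith
  set ε1 := min ε 1 with hε1
  have hε10 : 0 < ε1 := lt_min hε one_pos
  set δ := ε1 ^ p with hδ
  have hδ0 : 0 < δ := Real.rpow_pos_of_pos hε10 p
  have hδ1 : δ ≤ 1 := Real.rpow_le_one hε10.le (min_le_right _ _) hp0.le
  obtain ⟨R0, hR0⟩ := exists_pow_lt_of_lt_one (show 0 < δ / (8 * (8 * p)) by positivity)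
    (show (2⁻¹ : ℝ) < 1 by norm_num)
  set R := R0 + 2 with hR
  have hRδ : p * (8 * (2⁻¹ : ℝ) ^ R) ≤ δ / 8 := by
    have h1 : (2⁻¹ : ℝ) ^ R ≤ 2⁻¹ ^ R0 :=
      pow_le_pow_of_le_one (by norm_num) (by norm_num) (by omega)
    have h2 := mul_le_mul_of_nonneg_left (h1.trans hR0.le) (by positivity : 0 ≤ 8 * p)
    have e : 8 * p * (δ / (8 * (8 * p))) = δ / 8 := by field_simp
    linarith
  set W := ⌈8 * (R:ℝ) / δ⌉₊ + R with hWdef
  have hW0 : (0:ℝ) < W := by
    have : 0 < W := by omega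
    exact_mod_cast this
  have hRW : (R:ℝ) / W ≤ δ / 8 := by
    rw [div_le_iff₀ hW0]
    have h1 := Nat.le_ceil (8 * (R:ℝ) / δ)
    rw [div_le_iff₀ hδ0] at h1
    have h2 : (⌈8 * (R:ℝ) / δ⌉₊ : ℝ) ≤ W := by rw [hWdef]; push_cast; linarith [Nat.cast_nonneg (α := ℝ) R]
    have := mul_le_mul_of_nonneg_right h2 hδ0.le
    linarith
  set Ga : ℝ := (2 * (2:ℝ) ^ W) ^ p with hGa
  have hGa1 : 1 ≤ Ga := Real.one_le_rpow (by linarith [one_le_pow₀ (M₀ := ℝ) one_le_two (n := W)]) hp0.le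
  set lam := δ / 4 with hlam
  have hlam0 : 0 < lam := by rw [hlam]; positivity
  set Q : ℝ := 2 ^ p * 64 / δ with hQ
  have h2p : (2:ℝ) ≤ 2 ^ p := by
    simpa using Real.rpow_le_rpow_of_exponent_le one_le_two hp
  refine ⟨2 ^ p * Q * Ga ^ 2 * 6 / (lam * (δ / 8)), by positivity, ?_⟩
  intro ι μ _ _ L A hL hn hA v hv
  classical
  set v' : Option ι → μ → ℝ := fun o => o.elim 0 v with hv'
  have hv'A : ∀ o, pw p (v' o) ≤ A := by
    rintro (_ | a)
    · simp [hv', pw, Real.zero_rpow hp0.ne']; linarith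
    · exact hv a
  obtain ⟨J, φ, b, hb, hφb, hload, hφ⟩ :=
    exists_pieces hp (R := R) (by omega) (show 1 ≤ W by omega) (by omega) v' hv'A
  set a := Ga * A with ha
  have ha1 : 1 ≤ a := one_le_mul_of_one_le_of_one_le hGa1 hA
  set B := Q * a ^ 2 with hB
  have hQ2 : 2 ≤ Q := by
    rw [hQ, le_div_iff₀ hδ0]; linarith
  have hBa : 2 * a ≤ B := by
    rw [hB]; nlinarith
  have hL0 : (1:ℝ) ≤ L := by exact_mod_cast hL
  set m := ⌈2 ^ p * Q * Ga ^ 2 * 6 / (lam * (δ / 8)) * (L * A ^ 2)⌉₊ with hm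
  have hm' := Nat.le_ceil (2 ^ p * Q * Ga ^ 2 * 6 / (lam * (δ / 8)) * ((L:ℝ) * A ^ 2))
  rw [← hm] at hm'
  have hmpos : (0:ℝ) < m := lt_of_lt_of_le (by positivity) hm'
  have hm1 : 1 ≤ m := by exact_mod_cast hmpos
  obtain ⟨Φ, hΦ⟩ := exists_signed_hash hp φ b hb hφb ha1 hBa hlam0
    (by rw [hlam]; linarith) hload (k := L + 1)
    (by rw [Fintype.card_option, pow_succ]; omega) m hm1
  have e1 : 2 ^ p * (8 * a ^ 2) / B = δ / 8 := by
    have : (2:ℝ) ^ p ≠ 0 := by positivity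
    have : a ≠ 0 := by positivity
    rw [hB, hQ]
    field_simp
    ring
  have e2 : 2 ^ p * B * (3 * ((L + 1 : ℕ) : ℝ)) / (lam * m) ≤ δ / 8 := by
    refine budget_le (by positivity) hδ0 hlam0 hmpos ?_ (Ga := Ga) (Q := Q) (A := A) (L := L) ?_
      hm'
    · push_cast; linarith
    · rw [hB, ha]; ring
  have hpairs : ∀ o o', |nm p (Φ o - Φ o') - nm p (v' o - v' o')| ≤
      ε * (nm p (v' o - v' o') + 1) := by
    intro o o'
    refine (nm_close hp hε10 _ _ ?_).trans
      (mul_le_mul_of_nonneg_right (min_le_left _ _) (by linarith [nm_nonneg (p := p) (v' o - v' o')]))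
    rw [← hδ]
    obtain ⟨h1, h2⟩ := hφ o o'
    have h5 := hΦ o o'
    rw [e1] at h5
    exact combine_le hδ0 hδ1 hlam (by positivity) (by positivity) hRW hRδ h1 h2
      (pw_nonneg _) h5 e2
  refine ⟨fun a => Φ (some a) - Φ none, fun a b => ?_, fun a => ?_⟩
  · simpa [hv'] using hpairs (some a) (some b)
  · have := (abs_le.1 (hpairs (some a) none)).2
    simp only [hv', Option.elim_some, Option.elim_none, sub_zero] at this
    linarith

end Vale.Agent.P249.Iso
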