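import Vale.Agent.P249.Dim.Basic
import Mathlib.Analysis.Convex.SpecificFunctions.Basic
import Mathlib.Algebra.Order.Archimedean.Real.Basic

/-!
Cutting coordinates into signed layers of bounded width, with almost no change of distances.
-/

namespace Vale.Agent.P249.Iso

open Finset Vale.Agent.P249.Dim

/-- Clamping to `[-θ, θ]`. -/
noncomputable def clamp (θ t : ℝ) : ℝ := max (-θ) (min θ t)

lemma clamp_mono (θ : ℝ) {s t : ℝ} (h : s ≤ t) : clamp θ s ≤ clamp θ t :=
  max_le_max le_rfl (min_le_min le_rfl h)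

lemma abs_clamp_le {θ : ℝ} (hθ : 0 ≤ θ) (t : ℝ) : |clamp θ t| ≤ θ :=
  abs_le.2 ⟨le_max_left _ _, max_le (by linarith) (min_le_left _ _)⟩

lemma clamp_eq_self {θ t : ℝ} (h : |t| ≤ θ) : clamp θ t = t := by
  rw [abs_le] at h
  rw [clamp, min_eq_right h.2, max_eq_right h.1]

lemma clamp_lip (θ s t : ℝ) : |clamp θ s - clamp θ t| ≤ |s - t| := by
  refine (abs_max_sub_max_le_max _ _ _ _).trans ?_
  rw [sub_self, abs_zero, max_eq_right (abs_nonneg _)]
  refine (abs_min_sub_min_le_max _ _ _ _).trans ?_
  rw [sub_self, abs_zero, max_eq_right (abs_nonneg _)]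

/-- The difference of two clampings is monotone. -/
lemma clamp_sub_mono {θ θ' : ℝ} (hθ : 0 ≤ θ) (h : θ ≤ θ') {s t : ℝ} (hst : s ≤ t) :
    clamp θ' s - clamp θ s ≤ clamp θ' t - clamp θ t := by
  have e : ∀ u : ℝ, clamp θ' u - clamp θ u =
      max 0 (min (θ' - θ) (u - θ)) + min 0 (max (θ - θ') (u + θ)) := by
    intro u
    simp only [clamp, max_def, min_def]
    split_ifs <;> linarith
  rw [e, e]
  exact add_le_add (max_le_max le_rfl (min_le_min le_rfl (by linarith)))
    (min_le_min le_rfl (max_le_max le_rfl (by linarith)))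

/-- Boundaries of geometric layers. -/
def edge (e : ℝ) (W k j : ℕ) : ℝ := e * 2 ^ (j * W + k)

/-- A signed layer. -/
noncomputable def piece (e : ℝ) (W k j : ℕ) (t : ℝ) : ℝ :=
  clamp (edge e W k (j + 1)) t - clamp (edge e W k j) t

lemma edge_pos {e : ℝ} (he : 0 < e) (W k j : ℕ) : 0 < edge e W k j := by rw [edge]; positivity

lemma edge_succ (e : ℝ) (W k j : ℕ) : edge e W k (j + 1) = 2 ^ W * edge e W k j := by
  rw [edge, edge, show (j + 1) * W + k = W + (j * W + k) by ring, pow_add]; ring

lemma edge_mono {e : ℝ} (he : 0 < e) (W k : ℕ) {i j : ℕ} (h : i ≤ j) :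
    edge e W k i ≤ edge e W k j :=
  mul_le_mul_of_nonneg_left (pow_le_pow_right₀ one_le_two
    (Nat.add_le_add_right (Nat.mul_le_mul_right W h) k)) he.le

lemma piece_zero {e : ℝ} (he : 0 < e) (W k j : ℕ) {t : ℝ} (h : |t| ≤ edge e W k j) :
    piece e W k j t = 0 := by
  rw [piece, clamp_eq_self h, clamp_eq_self (h.trans (edge_mono he W k (Nat.le_succ j))), sub_self]

lemma abs_piece_le {e : ℝ} (he : 0 < e) (W k j : ℕ) (t : ℝ) :
    |piece e W k j t| ≤ edge e W k (j + 1) := by
  have h1 := edge_pos he W k j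
  have h2 := edge_mono he W k (Nat.le_succ j)
  rw [abs_le]
  simp only [piece, clamp, max_def, min_def]
  constructor <;> split_ifs <;> linarith

lemma sum_piece_le {e p : ℝ} (he : 0 < e) (hp : 1 ≤ p) (W k J : ℕ) (s t : ℝ) :
    ∑ j ∈ range J, |piece e W k j s - piece e W k j t| ^ p ≤ |s - t| ^ p := by
  refine (sum_rpow_le hp _ _ fun j _ => abs_nonneg _).trans
    (Real.rpow_le_rpow (sum_nonneg fun j _ => abs_nonneg _) ?_ (by linarith))
  wlog hst : t ≤ s generalizing s t
  · simp only [abs_sub_comm (piece e W k _ s)]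
    rw [abs_sub_comm]
    exact this t s (le_of_not_ge hst)
  have hm : ∀ j, 0 ≤ piece e W k j s - piece e W k j t := fun j =>
    sub_nonneg.2 (clamp_sub_mono (edge_pos he W k j).le (edge_mono he W k (Nat.le_succ j)) hst)
  rw [sum_congr rfl fun j _ => abs_of_nonneg (hm j), abs_of_nonneg (sub_nonneg.2 hst),
    sum_sub_distrib]
  simp only [piece]
  rw [sum_range_sub (fun j => clamp (edge e W k j) s), sum_range_sub (fun j => clamp (edge e W k j) t)]
  have h1 := le_abs_self (clamp (edge e W k J) s - clamp (edge e W k J) t)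
  have h2 := clamp_lip (edge e W k J) s t
  have h3 := clamp_mono (edge e W k 0) hst
  rw [abs_of_nonneg (sub_nonneg.2 hst)] at h2
  linarith

lemma load_piece_le {e p : ℝ} (he : 0 < e) (hp : 1 ≤ p) {W : ℕ} (hW : 1 ≤ W) (k J : ℕ) (t : ℝ) :
    ∑ j ∈ (range J).filter (fun j => piece e W k j t ≠ 0), edge e W k (j + 1) ^ p ≤
      (2 * 2 ^ W * |t|) ^ p := by
  classical
  set S := (range J).filter (fun j => piece e W k j t ≠ 0) with hS
  refine (sum_rpow_le hp _ _ fun j _ => (edge_pos he W k _).le).trans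
    (Real.rpow_le_rpow (sum_nonneg fun j _ => (edge_pos he W k _).le) ?_ (by linarith))
  rcases S.eq_empty_or_nonempty with h | h
  · rw [h, sum_empty]; positivity
  have hgeo : ∀ n, ∑ j ∈ range n, edge e W k (j + 1) ≤ 2 * edge e W k n := by
    intro n
    induction n with
    | zero => simp only [range_zero, sum_empty]; linarith [edge_pos he W k 0]
    | succ n ih =>
      rw [sum_range_succ]
      have h2 : (2:ℝ) ≤ 2 ^ W := le_self_pow₀ one_le_two (by omega)
      have := mul_le_mul_of_nonneg_right h2 (edge_pos he W k n).le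
      rw [← edge_succ] at this
      linarith
  have hM := mem_filter.1 (show S.max' h ∈ (range J).filter (fun j => piece e W k j t ≠ 0) from
    hS ▸ S.max'_mem h)
  have hlt : edge e W k (S.max' h) < |t| := lt_of_not_ge fun h' => hM.2 (piece_zero he W k _ h')
  calc ∑ j ∈ S, edge e W k (j + 1) ≤ ∑ j ∈ range (S.max' h + 1), edge e W k (j + 1) :=
        sum_le_sum_of_subset_of_nonneg
          (fun j hj => mem_range.2 (Nat.lt_succ_of_le (S.le_max' j hj)))
          fun j _ _ => (edge_pos he W k _).le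
    _ ≤ 2 * edge e W k (S.max' h + 1) := hgeo _
    _ ≤ _ := by
        rw [edge_succ, mul_assoc]
        exact mul_le_mul_of_nonneg_left (mul_le_mul_of_nonneg_left hlt.le (by positivity))
          zero_le_two

/-- Few shifts put a given number into a given set of residues. -/
lemma card_bad_shift {W : ℕ} {u : ℕ} (hu : W ≤ u) (S : Finset ℕ) :
    ((univ : Finset (Fin W)).filter fun k : Fin W => (u - (k:ℕ)) % W ∈ S).card ≤ S.card := by
  refine card_le_card_of_injOn (fun k : Fin W => (u - (k:ℕ)) % W)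
    (fun k hk => by simpa using (mem_filter.1 hk).2) fun a _ b _ hab => ?_
  simp only at hab
  have ha := a.isLt
  have hb := b.isLt
  refine Fin.ext ?_
  rcases le_total (a:ℕ) b with h | h
  · have h1 : (u - (b:ℕ)) ≡ (u - (a:ℕ)) [MOD W] := hab.symm
    have h2 := (Nat.modEq_iff_dvd' (by omega)).1 h1
    rw [show u - (a:ℕ) - (u - (b:ℕ)) = (b:ℕ) - a by omega] at h2
    have := Nat.eq_zero_of_dvd_of_lt h2 (by omega)
    omega
  · have h1 : (u - (a:ℕ)) ≡ (u - (b:ℕ)) [MOD W] := hab
    have h2 := (Nat.modEq_iff_dvd' (by omega)).1 h1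
    rw [show u - (b:ℕ) - (u - (a:ℕ)) = (a:ℕ) - b by omega] at h2
    have := Nat.eq_zero_of_dvd_of_lt h2 (by omega)
    omega

lemma exists_dyadic {e d : ℝ} (he : 0 < e) (hd : e ≤ d) :
    ∃ u : ℕ, e * 2 ^ u ≤ d ∧ d < e * 2 ^ (u + 1) := by
  have h1 : 1 ≤ d / e := (one_le_div he).2 hd
  obtain ⟨u, h2, h3⟩ := exists_nat_pow_near h1 one_lt_two
  exact ⟨u, by rw [le_div_iff₀ he] at h2; linarith, by rw [div_lt_iff₀ he] at h3; linarith⟩

/-- Averaged over the shifts, the layers keep almost the whole difference. -/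
lemma piece_lower {e p : ℝ} (he : 0 < e) (hp : 1 ≤ p) {W R J : ℕ} (hR : 2 ≤ R) (hW : 1 ≤ W)
    (hRW : R ≤ W) (s t : ℝ) (hlo : s = t ∨ e * 2 ^ (2 * W) ≤ max |s| |t|) (hJ : max |s| |t| < e * 2 ^ J) :
    ((W:ℝ) - R) * ((1 - p * (8 * (2⁻¹ : ℝ) ^ R)) * |s - t| ^ p) ≤
      ∑ k : Fin W, ∑ j ∈ range J, |piece e W k j s - piece e W k j t| ^ p := by
  classical
  have hp0 : 0 < p := by linarith
  have hnn : ∀ k : Fin W, 0 ≤ ∑ j ∈ range J, |piece e W k j s - piece e W k j t| ^ p := fun k =>
    sum_nonneg fun j _ => Real.rpow_nonneg (abs_nonneg _) _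
  rcases hlo with rfl | hlo
  · rw [sub_self, abs_zero, Real.zero_rpow hp0.ne', mul_zero, mul_zero]
    exact sum_nonneg fun k _ => hnn k
  set M := max |s| |t| with hM
  obtain ⟨u, hu1, hu2⟩ := exists_dyadic he
    ((le_mul_of_one_le_right he.le (one_le_pow₀ one_le_two)).trans hlo)
  have huJ : u < J := by
    by_contra h
    push Not at h
    have := mul_le_mul_of_nonneg_left (pow_le_pow_right₀ (one_le_two (α := ℝ)) h) he.le
    linarith
  have huW : 2 * W ≤ u := by
    by_contra h
    push Not at h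
    have := mul_le_mul_of_nonneg_left
      (pow_le_pow_right₀ (one_le_two (α := ℝ)) (show u + 1 ≤ 2 * W by omega)) he.le
    linarith
  set δ : ℝ := (2⁻¹ : ℝ) ^ R with hδ
  have hδ0 : 0 < δ := by rw [hδ]; positivity
  have hδ4 : δ ≤ 1 / 4 := by
    calc δ ≤ (2⁻¹ : ℝ) ^ 2 := pow_le_pow_of_le_one (by norm_num) (by norm_num) hR
      _ = _ := by norm_num
  set good := (univ : Finset (Fin W)).filter fun k : Fin W => R ≤ (u - (k:ℕ)) % W with hgood
  have hgc : (W:ℝ) - R ≤ good.card := by
    have h1 := card_filter_add_card_filter_not (s := (univ : Finset (Fin W)))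
      (fun k : Fin W => R ≤ (u - (k:ℕ)) % W)
    rw [card_univ, Fintype.card_fin] at h1
    have h2 : ((univ : Finset (Fin W)).filter fun k : Fin W => ¬ R ≤ (u - (k:ℕ)) % W).card ≤ R := by
      calc _ = ((univ : Finset (Fin W)).filter fun k : Fin W => (u - (k:ℕ)) % W ∈ range R).card := by
            congr 1; exact filter_congr fun k _ => by simp
        _ ≤ _ := (card_bad_shift (by omega) (range R)).trans_eq (card_range R)
    have h3 : W ≤ good.card + R := by rw [hgood]; omega
    have : (W:ℝ) ≤ good.card + R := by exact_mod_cast h3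
    linarith
  have key : ∀ k ∈ good, (1 - p * (8 * δ)) * |s - t| ^ p ≤
      ∑ j ∈ range J, |piece e W k j s - piece e W k j t| ^ p := by
    intro k hk
    rw [hgood, mem_filter] at hk
    have hkW := k.isLt
    set j := (u - (k:ℕ)) / W with hj
    have hdm := Nat.div_add_mod (u - (k:ℕ)) W
    have hml := Nat.mod_lt (u - (k:ℕ)) (show W > 0 by omega)
    rw [← hj, mul_comm] at hdm
    have hjJ : j < J := by
      have : j ≤ u := (Nat.div_le_self _ _).trans (Nat.sub_le _ _)
      omega
    set θ := edge e W k j with hθ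
    have hθ0 : 0 < θ := edge_pos he _ _ _
    have hθM : θ ≤ δ * M := by
      have h1 : j * W + k + R ≤ u := by
        have := hk.2
        omega
      have h2 := mul_le_mul_of_nonneg_left (pow_le_pow_right₀ (one_le_two (α := ℝ)) h1) he.le
      rw [pow_add, ← mul_assoc] at h2
      have h3 : θ * 2 ^ R ≤ M := by rw [hθ, edge]; linarith
      rw [hδ, inv_pow, ← div_eq_inv_mul, le_div_iff₀ (by positivity)]
      exact h3
    have hMθ : M ≤ edge e W k (j + 1) := by
      refine hu2.le.trans (mul_le_mul_of_nonneg_left (pow_le_pow_right₀ one_le_two ?_) he.le)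
      have : (j + 1) * W = j * W + W := by ring
      omega
    have e1 : ∀ z, |z| ≤ M → piece e W k j z = z - clamp θ z := fun z hz => by
      rw [piece, clamp_eq_self (hz.trans hMθ)]
    have hc : |clamp θ s - clamp θ t| ≤ 8 * δ * |s - t| := by
      have a1 := abs_clamp_le hθ0.le s
      have a2 := abs_clamp_le hθ0.le t
      have a3 := abs_sub (clamp θ s) (clamp θ t)
      by_cases hsame : (θ ≤ s ∧ θ ≤ t) ∨ (s ≤ -θ ∧ t ≤ -θ)
      · have : clamp θ s = clamp θ t := by
          rcases hsame with ⟨b1, b2⟩ | ⟨b1, b2⟩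
          · simp [clamp, min_eq_left b1, min_eq_left b2]
          · simp [clamp, min_eq_right (show s ≤ θ by linarith),
              min_eq_right (show t ≤ θ by linarith), max_eq_left b1, max_eq_left b2]
        rw [this, sub_self, abs_zero]; positivity
      · push Not at hsame
        have hb : M - θ ≤ |s - t| := by
          have c1 := le_abs_self s
          have c2 := neg_le_abs s
          have c3 := le_abs_self t
          have c4 := neg_le_abs t
          rcases le_total |s| |t| with h | h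
          · rw [hM, max_eq_right h]
            rcases le_total 0 t with b | b
            · rw [abs_of_nonneg b] at h ⊢
              rw [abs_sub_comm]
              refine le_trans ?_ (le_abs_self (t - s))
              by_cases b' : θ ≤ s
              · linarith [hsame.1 b']
              · linarith [lt_of_not_ge b']
            · rw [abs_of_nonpos b] at h ⊢
              refine le_trans ?_ (le_abs_self (s - t))
              by_cases b' : s ≤ -θ
              · linarith [hsame.2 b']
              · linarith [lt_of_not_ge b']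
          · rw [hM, max_eq_left h]
            rcases le_total 0 s with b | b
            · rw [abs_of_nonneg b] at h ⊢
              refine le_trans ?_ (le_abs_self (s - t))
              by_cases b' : θ ≤ s
              · linarith [hsame.1 b']
              · linarith [lt_of_not_ge b']
            · rw [abs_of_nonpos b] at h ⊢
              rw [abs_sub_comm]
              refine le_trans ?_ (le_abs_self (t - s))
              by_cases b' : s ≤ -θ
              · linarith [hsame.2 b']
              · linarith [lt_of_not_ge b']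
        have hM0 : 0 ≤ M := le_max_of_le_left (abs_nonneg _)
        nlinarith [mul_le_mul_of_nonneg_right hδ4 hM0]
    have hd : (1 - 8 * δ) * |s - t| ≤ |piece e W k j s - piece e W k j t| := by
      rw [e1 s (le_max_left _ _), e1 t (le_max_right _ _),
        show s - clamp θ s - (t - clamp θ t) = s - t - (clamp θ s - clamp θ t) by ring]
      have := abs_sub_abs_le_abs_sub (s - t) (clamp θ s - clamp θ t)
      linarith
    refine le_trans ?_ (single_le_sum
      (f := fun j => |piece e W k j s - piece e W k j t| ^ p)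
      (fun j _ => Real.rpow_nonneg (abs_nonneg _) _) (mem_range.2 hjJ))
    rcases le_total (1 - 8 * δ) 0 with h | h
    · refine le_trans ?_ (Real.rpow_nonneg (abs_nonneg _) _)
      refine mul_nonpos_of_nonpos_of_nonneg ?_ (Real.rpow_nonneg (abs_nonneg _) _)
      nlinarith
    · refine le_trans ?_ (Real.rpow_le_rpow (mul_nonneg h (abs_nonneg _)) hd hp0.le)
      rw [Real.mul_rpow h (abs_nonneg _)]
      refine mul_le_mul_of_nonneg_right ?_ (Real.rpow_nonneg (abs_nonneg _) _)
      have := one_add_mul_self_le_rpow_one_add (show -1 ≤ -(8 * δ) by linarith) hp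
      rw [← sub_eq_add_neg] at this
      linarith
  rcases le_total 0 ((1 - p * (8 * δ)) * |s - t| ^ p) with h | h
  · calc ((W:ℝ) - R) * ((1 - p * (8 * δ)) * |s - t| ^ p)
        ≤ ∑ _k ∈ good, (1 - p * (8 * δ)) * |s - t| ^ p := by
          rw [sum_const, nsmul_eq_mul]; exact mul_le_mul_of_nonneg_right hgc h
      _ ≤ ∑ k ∈ good, ∑ j ∈ range J, |piece e W k j s - piece e W k j t| ^ p := sum_le_sum key
      _ ≤ _ := sum_le_sum_of_subset_of_nonneg (subset_univ _) fun k _ _ => hnn k
  · have : (R:ℝ) ≤ W := by exact_mod_cast hRW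
    exact (mul_nonpos_of_nonneg_of_nonpos (by linarith) h).trans (sum_nonneg fun k _ => hnn k)

/-- Every bounded family splits into signed pieces with small load and almost equal distances. -/
lemma exists_pieces {ι μ : Type*} [Fintype ι] [Fintype μ] {p : ℝ} (hp : 1 ≤ p) {W R : ℕ}
    (hR : 2 ≤ R) (hW : 1 ≤ W) (hRW : R ≤ W) (v : ι → μ → ℝ) {A : ℝ} (hv : ∀ a, pw p (v a) ≤ A) :
    ∃ (J : ℕ) (φ : ι → μ × Fin W × Fin J → ℝ) (b : μ × Fin W × Fin J → ℝ),
      (∀ c, 0 < b c) ∧ (∀ a c, |φ a c| ≤ b c) ∧
      (∀ a, ∑ c ∈ univ.filter (fun c => φ a c ≠ 0), b c ^ p ≤ (2 * (2:ℝ) ^ W) ^ p * A) ∧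
      ∀ a a', pw p (φ a - φ a') ≤ pw p (v a - v a') ∧
        (1 - (R:ℝ) / W) * (1 - p * (8 * (2⁻¹ : ℝ) ^ R)) * pw p (v a - v a') ≤
          pw p (φ a - φ a') := by
  classical
  have hp0 : 0 < p := by linarith
  set S := insert (1:ℝ)
    ((univ.filter fun q : ι × μ => v q.1 q.2 ≠ 0).image fun q => |v q.1 q.2|) with hS
  set m := S.min' (insert_nonempty _ _) with hm
  have hm0 : 0 < m := by
    refine (lt_min'_iff S _).2 fun t ht => ?_
    rcases mem_insert.1 ht with rfl | ht
    · exact one_pos
    · obtain ⟨q, hq, rfl⟩ := mem_image.1 ht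
      exact abs_pos.2 (mem_filter.1 hq).2
  set e : ℝ := m / 2 ^ (2 * W) with he
  have he0 : 0 < e := by positivity
  have hlo : ∀ a i, v a i ≠ 0 → e * 2 ^ (2 * W) ≤ |v a i| := fun a i h => by
    rw [he, div_mul_cancel₀ _ (by positivity)]
    exact min'_le _ _ (mem_insert_of_mem (mem_image.2 ⟨(a, i), by simp [h], rfl⟩))
  obtain ⟨J, hJ⟩ := pow_unbounded_of_one_lt ((∑ q : ι × μ, |v q.1 q.2|) / e) one_lt_two
  rw [div_lt_iff₀ he0] at hJ
  have hhi : ∀ a i, |v a i| < e * 2 ^ J := fun a i => by
    refine lt_of_le_of_lt ?_ (hJ.trans_eq (mul_comm _ _))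
    exact single_le_sum (f := fun q : ι × μ => |v q.1 q.2|) (fun q _ => abs_nonneg _) (mem_univ (a, i))
  have hW0 : (0:ℝ) < W := by exact_mod_cast hW
  set c : ℝ := ((W:ℝ)⁻¹) ^ (1 / p) with hc
  have hc0 : 0 < c := by positivity
  have hcp : ∀ z : ℝ, 0 ≤ z → (c * z) ^ p = (W:ℝ)⁻¹ * z ^ p := fun z hz => by
    rw [Real.mul_rpow hc0.le hz, hc, ← Real.rpow_mul (by positivity), one_div,
      inv_mul_cancel₀ hp0.ne', Real.rpow_one]
  refine ⟨J, fun a q => c * piece e W (q.2.1 : ℕ) (q.2.2 : ℕ) (v a q.1),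
    fun q => c * edge e W (q.2.1 : ℕ) ((q.2.2 : ℕ) + 1), fun q => mul_pos hc0 (edge_pos he0 _ _ _),
    fun a q => ?_, fun a => ?_, fun a a' => ?_⟩
  · rw [abs_mul, abs_of_pos hc0]
    exact mul_le_mul_of_nonneg_left (abs_piece_le he0 _ _ _ _) hc0.le
  · refine le_trans ?_ (mul_le_mul_of_nonneg_left (hv a) (by positivity))
    rw [pw, mul_sum, sum_filter, Fintype.sum_prod_type]
    refine sum_le_sum fun i _ => ?_
    rw [Fintype.sum_prod_type, ← Real.mul_rpow (by positivity) (abs_nonneg _)]
    calc _ ≤ ∑ _k : Fin W, (W:ℝ)⁻¹ * (2 * 2 ^ W * |v a i|) ^ p := by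
          refine sum_le_sum fun k _ => ?_
          refine le_trans (le_of_eq ?_) (mul_le_mul_of_nonneg_left
            (load_piece_le he0 hp hW (k:ℕ) J (v a i)) (by positivity))
          rw [sum_filter, mul_sum, ← Fin.sum_univ_eq_sum_range]
          refine sum_congr rfl fun j _ => ?_
          simp only [mul_ne_zero_iff, hc0.ne', ne_eq, not_false_eq_true, true_and, mul_ite, mul_zero]
          congr 1
          exact hcp _ (edge_pos he0 _ _ _).le
      _ = _ := by simp; field_simp
  · have hsplit : pw p ((fun q : μ × Fin W × Fin J => c * piece e W (q.2.1 : ℕ) (q.2.2 : ℕ) (v a q.1))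
        - fun q => c * piece e W (q.2.1 : ℕ) (q.2.2 : ℕ) (v a' q.1)) = ∑ i, (W:ℝ)⁻¹ *
        ∑ k : Fin W, ∑ j ∈ range J, |piece e W k j (v a i) - piece e W k j (v a' i)| ^ p := by
      rw [pw, Fintype.sum_prod_type]
      refine sum_congr rfl fun i _ => ?_
      rw [Fintype.sum_prod_type, mul_sum]
      refine sum_congr rfl fun k _ => ?_
      rw [mul_sum, ← Fin.sum_univ_eq_sum_range]
      refine sum_congr rfl fun j _ => ?_
      simp only [Pi.sub_apply]
      rw [← mul_sub, abs_mul, abs_of_pos hc0, hcp _ (abs_nonneg _)]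
    rw [hsplit, pw, mul_sum]
    constructor <;> refine sum_le_sum fun i _ => ?_
    · calc _ ≤ (W:ℝ)⁻¹ * ∑ _k : Fin W, |v a i - v a' i| ^ p := by
            refine mul_le_mul_of_nonneg_left (sum_le_sum fun k _ => ?_) (by positivity)
            exact sum_piece_le he0 hp W (k:ℕ) J _ _
        _ = _ := by simp; field_simp
    · rw [le_inv_mul_iff₀ hW0, Pi.sub_apply]
      refine le_trans (le_of_eq ?_) (piece_lower he0 hp hR hW hRW (v a i) (v a' i) ?_
        (max_lt (hhi a i) (hhi a' i)))
      · field_simp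
      · by_cases h : v a i = 0 ∧ v a' i = 0
        · exact Or.inl (h.1.trans h.2.symm)
        · right
          rcases not_and_or.1 h with h | h
          · exact (hlo a i h).trans (le_max_left _ _)
          · exact (hlo a' i h).trans (le_max_right _ _)

end Vale.Agent.P249.Iso
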